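import Vale.Agent.P270W81.St

/-!
# N270: generalised klt pairs
-/

open CategoryTheory AlgebraicGeometry
open Vale.Agent.P289 Vale.Agent.P289.Var Vale.Agent.P270L Vale.Agent.P270W81
open Vale.Agent.P289W (Model)

namespace Vale.Agent.N270

variable {k : Type} [Field k] {X : Var k}

/-- A birational morphism `f : Y → X` from a normal projective variety. -/
structure ProjModel (X : Var k) extends Model X where
  projective : ∃ (n : ℕ) (i : Y ⟶ PP k n), IsClosedImmersion i ∧ i ≫ PP.str k n = f ≫ X.str

/-- `Y` as a normal projective variety over `k`. -/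
noncomputable def ProjModel.var (Y : ProjModel X) : Var k :=
  @Var.mk k _ Y.Y (Y.f ≫ X.str) Y.integral Y.normal Y.projective

/-- The data of a generalised klt pair `(X, f_* B + f_* M)` with nef part `M` on `Y`, where
`κ = K_Y` and `K_Y + B + M = f^* D`, so that `D = K_X + f_* B + f_* M`. -/
structure IsGenKlt (Y : ProjModel X) {n : ℕ} (ω : Y.var.Form n) (κ : Y.var.Div)
    (B M : Y.var.QDiv) (D : X.QDiv) : Prop where
  dim : Y.var.dim = n
  nonzero : ω.Nonzero
  canonical : IsDivisorOf κ ω
  nef : IsNef M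
  crepant : IsPullback (Y := Y.toModel) D (toQ κ + B + M)
  effective : ∀ E : Y.var.PrimeDiv, ¬ Model.Exceptional (M := Y.toModel) E → 0 ≤ B E
  klt : IsKlt ω κ B

/-- The Weil divisor `f_* C` on `X` is pseudo-effective: it is the push-forward of a
pseudo-effective divisor on `Y`. -/
def IsPsefPush (Y : ProjModel X) (C : Y.var.QDiv) : Prop :=
  ∃ G : Y.var.QDiv, IsPsef G ∧
    ∀ E : Y.var.PrimeDiv, ¬ Model.Exceptional (M := Y.toModel) E → G E = C E

/-- `D` is strictly nef. -/
def IsStrictlyNef (D : X.QDiv) : Prop := IsQCartier D ∧ ∀ C : Curve X, 0 < inter D C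

/-- `D` is ample: every point has an affine open neighbourhood `U` which is the locus where a global
section `f` of `O_X(E)` does not vanish, for a Cartier multiple `E = m D`, `m > 0`. -/
def IsAmple (D : X.QDiv) : Prop :=
  ∀ x : Pt X.X, ∃ (m : ℕ) (E : X.Div) (f : X.K) (U : X.X.Opens), IsCartierMultiple D m E ∧
    f ∈ sectionSet E ⊤ ∧ x ∈ U ∧ IsAffineOpen U ∧ ∀ z : Pt X.X, z ∈ U ↔ GeneratesAt E f z

end Vale.Agent.N270
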