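import Vale.Agent.P270L.A.Desc
import Vale.Agent.P270L.T.Dg
import Vale.Agent.P270L.S6Deg

/-!
# N270: a free system which contracts no curve defines a finite morphism
-/

open Set IntermediateField Polynomial
open Vale.Agent.P297 (Place PlaceOver IsFF)
open Vale.Agent.P270L Vale.Agent.P270L.DescH

noncomputable section

namespace Vale.Agent.N270

variable {k K : Type} [Field k] [Field K] [Algebra k K]

/-- the valuative criterion of integrality over a local ring -/
theorem loc_int {A : Subalgebra k K} (m : Ideal A)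
    (hm : m ≠ ⊤) {f : K} (h : ∀ V : ValuationSubring K, (∀ a ∈ A, a ∈ V) →
      (∀ a ∈ m, V.valuation (a : K) < 1) → f ∈ V) : ∃ s : A, s ∉ m ∧ IsIntegral A (s * f) := by
  rcases eq_or_ne f 0 with rfl | f0
  · exact ⟨1, (Ideal.ne_top_iff_one _).1 hm, by simpa using isIntegral_zero⟩
  let := invertibleOfNonzero (inv_ne_zero f0)
  let B := Algebra.adjoin A {f⁻¹}
  by_cases e : m.map (algebraMap A B) ⊔ .span {⟨f⁻¹, Algebra.subset_adjoin rfl⟩} = ⊤
  · obtain ⟨p, hp, hf⟩ :=
      Algebra.exists_aeval_invOf_eq_zero_of_idealMap_adjoin_sup_span_eq_top _ m hm e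
    rw [invOf_eq_inv, inv_inv] at hf
    exact ⟨_, fun c => (Ideal.ne_top_iff_one _).1 hm (by simpa using sub_mem c hp),
      isIntegral_leadingCoeff_smul p f hf⟩
  obtain ⟨V, h1, h2⟩ := Ideal.image_subset_nonunits_valuationSubring (A := B.toSubring) _ e
  exact absurd (h V (fun a ha => h1 (B.algebraMap_mem ⟨a, ha⟩)) fun a ha => V.mem_nonunits_iff.1
    (h2 ⟨_, Ideal.mem_sup_left (Ideal.mem_map_of_mem _ ha), rfl⟩))
    ((V.inv_mem_nonunits_iff.1 (h2 ⟨_, Ideal.mem_sup_right (Ideal.subset_span rfl), rfl⟩)).resolve_left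
      f0)

variable [IsAlgClosed k] [CharZero k] {ι σ : Type} [Fintype ι] [Fintype σ] {x : ι → K} {u : σ → K}

/-- the coordinates are algebraic on the fibres of `u` -/
theorem alg2 (hu : Free k x u) (H : ∀ p : Cv k x, p.dg u = 0 → p.dg x = 0) {i : ι} {l : σ}
    (xi : x i ≠ 0) (ul : u l ≠ 0) (B : Subalgebra k K) [Algebra.FiniteType k B]
    (hl : ∀ a, u a / u l ∈ B) (hx : ∀ j, (x i)⁻¹ * x j ∈ B) (P : Ideal B) [P.IsPrime]
    (ha : ∀ a, ∃ c, ⟨_, hl a⟩ - algebraMap k B c ∈ P) (j : ι) :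
    ∃ p : k[X], p ≠ 0 ∧ aeval (⟨_, hx j⟩ : B) p ∈ P := by
  by_contra! hc
  obtain ⟨L₀, Ω, _, _, _, _, _, _, φ, t, _, _, _, ht₀, et, hP⟩ := spec P _ hc
  let L := adjoin L₀ (range fun m => φ ⟨_, hx m⟩)
  have : FiniteDimensional L₀ L :=
    finiteDimensional_adjoin fun a _ => Algebra.IsIntegral.isIntegral a
  have ff := ff_fin k L₀ L
  have hB : ch k x i ≤ B := Algebra.adjoin_le (by
    rintro _ ⟨m, rfl⟩
    simpa only [div_eq_inv_mul] using! hx m)
  have hL : ∀ a : ch k x i, φ (Subalgebra.inclusion hB a) ∈ L := fun ⟨a, ha⟩ => by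
    induction ha using Algebra.adjoin_induction with
    | mem a ha =>
      obtain ⟨m, rfl⟩ := ha
      exact subset_adjoin _ _ ⟨m, congrArg φ (Subtype.ext (div_eq_inv_mul _ _).symm)⟩
    | algebraMap c =>
      exact (φ.commutes c).symm ▸ IsScalarTower.algebraMap_apply k L₀ Ω c ▸ L.algebraMap_mem _
    | add a b ha hb h1 h2 => simpa only [← map_add] using! add_mem h1 h2
    | mul a b ha hb h1 h2 => simpa only [← map_mul] using! mul_mem h1 h2
  let ψ : ch k x i →ₐ[k] L :=
    ⟨(φ.comp (Subalgebra.inclusion hB)).toRingHom.codRestrict L hL, fun c =>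
      Subtype.ext ((φ.comp (Subalgebra.inclusion hB)).commutes c)⟩
  let p : Cv k x := ⟨L, i, ψ⟩
  have h1 : p.dg u = 0 := by
    obtain ⟨z, z0, τ, hτ, hz⟩ := dg.ex k K ι σ x p u hu
    choose c hc using ha
    have e : ∀ a, z a = z l * algebraMap k L (c a) := fun a => Subtype.ext (by
      have e1 : φ ⟨_, hl a⟩ = algebraMap k Ω (c a) := by
        rw [← φ.commutes, ← sub_eq_zero, ← map_sub]
        exact hP _ (hc a)
      rw [hz a, hz l]
      change φ _ = φ _ * algebraMap k Ω (c a)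
      rw [← e1, ← map_mul]
      exact congrArg φ (Subtype.ext (by
        change τ * u a = τ * u l * (u a / u l)
        rw [mul_assoc, mul_div_cancel₀ _ ul])))
    have zl : z l ≠ 0 := fun h => z0 (funext fun a => by rw [e a, h, zero_mul]; rfl)
    have c0 : (fun a => algebraMap k L (c a)) ≠ 0 := fun h =>
      z0 (funext fun a => by rw [e a, congrFun h a]; exact mul_zero _)
    rw [dg.eq k K ι σ x p u z ⟨z0, τ, hτ, hz⟩, funext e, S.ht_mul c0 zl]
    exact S.ht_const c0 fun a => ⟨_, rfl⟩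
  have hj : ∀ m, (x i)⁻¹ * x m ∈ ch k x i := fun m =>
    Algebra.subset_adjoin ⟨m, div_eq_inv_mul _ _⟩
  let z : ι → L := fun m => ⟨_, subset_adjoin _ _ ⟨m, rfl⟩⟩
  have z1 : z i = 1 := Subtype.ext
    ((congrArg φ (Subtype.ext (inv_mul_cancel₀ xi))).trans (map_one φ))
  have h3 := dg.eq k K ι ι x p x z ⟨Function.ne_iff.2 ⟨i, z1.trans_ne one_ne_zero⟩, _, hj,
    fun _ => rfl⟩
  have zt : Transcendental k (z j) := by
    rwa [show z j = algebraMap L₀ L t from Subtype.ext et,
      transcendental_algebraMap_iff (algebraMap L₀ L).injective]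
  have h4 := P270L.hg.le k L ff ι (Fin 2) z ![1, z j] (Function.ne_iff.2 ⟨0, one_ne_zero⟩)
    fun m => Submodule.subset_span (by fin_cases m; exacts [⟨i, z1⟩, ⟨j, rfl⟩])
  have := IsFF.finiteDimensional zt
  rw [H p h1, eq_comm] at h3
  rw [P270L.hg.deg k L ‹_› _ zt] at h4
  exact Module.finrank_pos.not_ge (by exact_mod_cast h4.trans_eq h3)

/-- the model `x` is finite over the image of `u` -/
theorem desc2 [Nonempty ι] (x0 : ∀ i, x i ≠ 0) (hf : Free k x u)
    (H : ∀ p : Cv k x, p.dg u = 0 → p.dg x = 0) {i : σ} (ui : u i ≠ 0) :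
    ∃ t : ι → K, (∀ j l, IsIntegral (ch k u i) (t j * x l)) ∧ ∑ j, t j * x j = 1 := by
  classical
  set A := ch k u i
  have : Algebra.FiniteType k A := .adjoin_of_finite (finite_range _)
  let I : Ideal A :=
    { carrier := {a | ∃ t : ι → K, (∀ j l, IsIntegral A (t j * x l)) ∧ ∑ j, t j * x j = a}
      add_mem' := fun ⟨t, h, e⟩ ⟨t', h', e'⟩ => ⟨t + t', fun j l => by
        simpa [add_mul] using (h j l).add (h' j l), by
        simp [add_mul, Finset.sum_add_distrib, e, e']⟩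
      zero_mem' := ⟨0, by simpa using isIntegral_zero, by simp⟩
      smul_mem' := fun c a ⟨t, h, e⟩ => ⟨fun j => c * t j, fun j l => by
        rw [mul_assoc]
        exact (h j l).smul c, by simp [mul_assoc, ← Finset.mul_sum, e]⟩ }
  by_contra hn
  have := Ideal.Quotient.nontrivial_iff.2 ((Ideal.ne_top_iff_one I).2 hn)
  obtain ⟨χ⟩ := pt_ex k (A ⧸ I) k
  let ev := χ.comp (Ideal.Quotient.mkₐ k I)
  let m := RingHom.ker ev
  have hm : m.IsPrime := RingHom.ker_isPrime ev
  let B : ι → Subalgebra k K := fun l =>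
    Algebra.adjoin k (range (fun j => u j / u i) ∪ range fun j => (x l)⁻¹ * x j)
  have hAB : ∀ l, A ≤ B l := fun l => Algebra.adjoin_mono subset_union_left
  have hu : ∀ l j, (x l)⁻¹ * x j ∈ B l := fun l j => Algebra.subset_adjoin (.inr ⟨j, rfl⟩)
  have key : ∀ l j, ∃ p : k[X], p ≠ 0 ∧
      aeval (⟨_, hu l j⟩ : B l) p ∈ m.map (Subalgebra.inclusion (hAB l)) := fun l j => by
    by_contra! hc
    have : Algebra.FiniteType k (B l) :=
      .adjoin_of_finite ((finite_range _).union (finite_range _))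
    obtain ⟨P, hP, h1, h2⟩ := (m.map (Subalgebra.inclusion (hAB l))).exists_le_prime_disjoint
      ((nonZeroDivisors k[X]).map (aeval (⟨_, hu l j⟩ : B l))) (disjoint_left.2 <| by
        rintro _ h ⟨p, hp, rfl⟩
        exact hc p (nonZeroDivisors.ne_zero hp) h)
    have hj : ∀ j, u j / u i ∈ A := fun j => Algebra.subset_adjoin ⟨j, rfl⟩
    obtain ⟨p, p0, hp⟩ := alg2 hf H (x0 l) ui (B l) (fun j => hAB l (hj j))
      (hu l) P (fun j => ⟨ev ⟨_, hj j⟩, h1 (Ideal.mem_map_of_mem _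
        (x := ⟨_, hj j⟩ - algebraMap k A (ev ⟨_, hj j⟩)) (by simp [m, RingHom.mem_ker]))⟩) j
    exact disjoint_left.1 h2 hp ⟨p, mem_nonZeroDivisors_of_ne_zero p0, rfl⟩
  choose p p0 hp using key
  have hZ : {a : ι → k | a ≠ 0 ∧ ∃ l, ∀ j, a j ∈ (p l j).roots}.Finite :=
    (finite_iUnion fun l => Finite.pi' fun j => (p l j).roots.finite_toSet).subset
      fun a ha => mem_iUnion.2 ha.2
  have := hZ.to_subtype
  obtain ⟨μ, hμ⟩ := Module.exists_dual_forall_apply_ne_zero (K := k)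
    (fun a : {a : ι → k | a ≠ 0 ∧ ∃ l, ∀ j, a j ∈ (p l j).roots} => a.1) fun a => a.2.1
  let c : ι → k := fun j => μ (Pi.single j 1)
  let f : K := ∑ j, c j • x j
  have dom : ∀ V : ValuationSubring K, (∀ a ∈ A, a ∈ V) → (∀ a ∈ m, V.valuation (a : K) < 1) →
      f ≠ 0 ∧ ∀ j, f⁻¹ * x j ∈ V := fun V h1 h2 => by
    obtain ⟨l, -, hl⟩ := Finset.exists_max_image Finset.univ (fun l => V.valuation (x l))
      Finset.univ_nonempty
    have ul : x l ≠ 0 := x0 l
    have hB : ∀ b ∈ B l, b ∈ V := fun b hb => by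
      refine (Algebra.adjoin_le (S := { V.toSubring with
        algebraMap_mem' := fun a => h1 _ (A.algebraMap_mem a) }) ?_) hb
      rintro _ (⟨j, rfl⟩ | ⟨j, rfl⟩)
      · exact h1 _ (Algebra.subset_adjoin ⟨j, rfl⟩)
      · refine (V.valuation_le_one_iff _).1 ?_
        rw [map_mul, map_inv₀, inv_mul_le_one₀ (by simpa [zero_lt_iff] using ul)]
        exact hl j (Finset.mem_univ _)
    let ρ : B l →+* V := (B l).subtype.codRestrict V fun b => hB b b.2
    let P := (IsLocalRing.maximalIdeal V).comap ρ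
    have hP : m.map (Subalgebra.inclusion (hAB l)) ≤ P := Ideal.map_le_iff_le_comap.2 fun a ha =>
      (V.valuation_lt_one_iff _).2 (h2 a ha)
    choose a ha hP using fun j => root_mem P _ (p0 l j) (hP (hp l j))
    have unit : ∀ (b : B l) (r : k), r ≠ 0 → b - algebraMap k _ r ∈ P → b ∉ P := fun b r r0 h h' =>
      Ideal.IsPrime.ne_top inferInstance (P.eq_top_of_isUnit_mem
        (by simpa using sub_mem h' h) (r0.isUnit.map (algebraMap k (B l))))
    have a0 : a ≠ 0 := fun e => (Ideal.ne_top_iff_one P).1 (Ideal.IsPrime.ne_top inferInstance) <| by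
      simpa [e, ul] using! hP l
    have := unit (∑ j, c j • ⟨_, hu l j⟩) _ (hμ ⟨a, a0, l, ha⟩) (by
      have e : μ a = ∑ j, c j * a j := by
        rw [← congrArg μ (Finset.univ_sum_single a), map_sum]
        exact Finset.sum_congr rfl fun j _ => by
          rw [mul_comm, ← smul_eq_mul, ← map_smul, ← Pi.single_smul, smul_eq_mul, mul_one]
      rw [e, map_sum, ← Finset.sum_sub_distrib]
      refine sum_mem fun j _ => ?_
      rw [map_mul, Algebra.smul_def, ← mul_sub]
      exact P.mul_mem_left _ (hP j))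
    have e : (ρ (∑ j, c j • ⟨_, hu l j⟩) : K) = (x l)⁻¹ * f := by
      simp [ρ, f, Finset.mul_sum]
    have hv := (V.valuation_eq_one_iff _).1 (not_not.1 this)
    rw [e] at hv
    have f0 : f ≠ 0 := fun c => by simp [c] at hv
    refine ⟨f0, fun j => ?_⟩
    have := mul_mem ((V.valuation_le_one_iff ((x l)⁻¹ * f)⁻¹).1 (by rw [map_inv₀, hv, inv_one]))
      (hB _ (hu l j))
    rwa [mul_inv, inv_inv, mul_mul_mul_comm, mul_inv_cancel₀ ul, one_mul] at this
  obtain ⟨V, h1, h2⟩ := Ideal.image_subset_nonunits_valuationSubring (A := A.toSubring) m hm.ne_top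
  have f0 := (dom V (fun a ha => h1 ha) fun a ha => V.mem_nonunits_iff.1 (h2 ⟨a, ha, rfl⟩)).1
  choose s hs hf using fun j => loc_int m hm.ne_top fun V a b => (dom V a b).2 j
  refine (Ideal.IsPrime.prod_mem_iff (s := Finset.univ) (x := s)).not.2 (by simpa using hs) ?_
  refine (congrArg χ (Ideal.Quotient.eq_zero_iff_mem.2 ?_)).trans (map_zero χ)
  refine ⟨fun j => c j • (↑(∏ j, s j) * f⁻¹), fun j l => ?_, ?_⟩
  · rw [smul_mul_assoc, ← Finset.prod_erase_mul _ _ (Finset.mem_univ l), Subalgebra.coe_mul,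
      mul_assoc, mul_assoc, ← algebraMap_smul A]
    exact ((hf l).smul (∏ j ∈ Finset.univ.erase l, s j)).smul _
  · simp_rw [smul_mul_assoc, ← mul_smul_comm, ← Finset.mul_sum]
    exact inv_mul_cancel_right₀ f0 _

end Vale.Agent.N270
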