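import Vale.Agent.N270.Main
import Vale.Agent.N270.Fin
import Vale.Agent.N270.Defs

/-!
# N270: strictly nef and numerically semiample divisors are ample
-/

open CategoryTheory AlgebraicGeometry TopologicalSpace Order
open Vale.Agent.P299.G Vale.Agent.P289 Vale.Agent.P289.Var Vale.Agent.P289.H219
open Vale.Agent.P270L Vale.Agent.P270L.S
open Vale.Agent.P270W81 (IsKlt)

namespace Vale.Agent.N270

set_option linter.unusedSectionVars false

variable {k : Type} [Field k] [CharZero k] [IsAlgClosed k] {V X Y : Var k}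

theorem int_loc {A : Subalgebra k V.K} {p : V.X} (hA : ∀ a ∈ A, a ∈ loc p) {f : V.K}
    (hf : IsIntegral A f) : f ∈ loc p := by
  choose g hg using fun a : A => hA a a.2
  let ψ : A →+* V.X.presheaf.stalk p :=
    { toFun := g
      map_one' := toK_injective p (by rw [hg, map_one]; rfl)
      map_mul' := fun a b => toK_injective p (by rw [hg, map_mul, hg, hg]; rfl)
      map_zero' := toK_injective p (by rw [hg, map_zero]; rfl)
      map_add' := fun a b => toK_injective p (by rw [hg, map_add, hg, hg]; rfl) }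
  have hψ : (algebraMap (V.X.presheaf.stalk p) V.X.functionField).comp ψ =
      algebraMap A V.X.functionField := by
    ext a
    exact hg a
  obtain ⟨P, hP, hPf⟩ := hf
  have h1 : IsIntegral (V.X.presheaf.stalk p) f :=
    ⟨P.map ψ, hP.map ψ, by rw [Polynomial.eval₂_map, hψ]; exact hPf⟩
  have := V.normal p
  exact IsIntegrallyClosed.isIntegral_iff.1 h1

theorem gen_quot {E F : V.Div} {σ σ' : Type} {v : σ → V.K} {w : σ' → V.K} (hw : Gen E w)
    (h : Gen F (tp v w)) : Gen (F - E) v := by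
  have key : ∀ l p, Sec (F - E) (v l) p := fun l p v0 y hy => by
    obtain ⟨m, hm⟩ := hw.gen p
    have h1 := h.sec (l, m) p (mul_ne_zero v0 hm.1) y hy
    have h2 := hm.2 y hy
    rw [tp, ordAlong_mul v0 hm.1] at h1
    rw [Finsupp.sub_apply]
    omega
  refine ⟨key, fun p => ?_⟩
  obtain ⟨⟨l, m⟩, h1⟩ := h.gen p
  have v0 : v l ≠ 0 := left_ne_zero_of_mul h1.1
  have w0 : w m ≠ 0 := right_ne_zero_of_mul h1.1
  refine ⟨l, v0, fun y hy => ?_⟩
  have h2 : ordAlong (v l * w m) y + F y = 0 := h1.2 y hy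
  have h3 := key l p v0 y hy
  have h4 := hw.sec m p w0 y hy
  rw [ordAlong_mul v0 w0] at h2
  rw [Finsupp.sub_apply] at h3 ⊢
  omega

theorem gen_pw {E : V.Div} {σ : Type} {w : σ → V.K} (hw : Gen E w) {j : ℕ} (hj : 0 < j) :
    Gen (j • E) (pw w j) := by
  refine ⟨fun l p h0 y hy => ?_, fun p => (hw.gen p).imp fun l hl => gen_pow hl j⟩
  have h1 : w l ≠ 0 := fun e => h0 (by rw [pw, e, zero_pow hj.ne'])
  rw [pw, ordAlong_pow h1, Finsupp.smul_apply, nsmul_eq_mul, ← mul_add]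
  exact mul_nonneg (Int.natCast_nonneg j) (hw.sec l p h1 y hy)

theorem gen_of_gg {F : V.Div} (hF : IsGloballyGenerated F) :
    ∃ (σ : Type) (_ : Fintype σ) (u : σ → V.K), Gen F u := by
  choose f h1 h2 using hF
  obtain ⟨t, ht⟩ := isCompact_univ.elim_finite_subcover
    (fun p : V.X => {q : V.X | GeneratesAt F (f p) q}) (fun p => isOpen_generatesAt F (f p))
    (fun p _ => Set.mem_iUnion.2 ⟨p, h2 p⟩)
  refine ⟨t, inferInstance, fun p => f p, fun p q _ y _ => h1 p y, fun q => ?_⟩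
  obtain ⟨p, hp, hq⟩ := Set.mem_iUnion₂.1 (ht (Set.mem_univ q))
  exact ⟨⟨p, hp⟩, hq⟩

variable {ι : Type} [Fintype ι] [Nonempty ι] {x : ι → V.K} {U : ι → V.X.Opens} (h : Atl k x U)
  {H : V.Div} (hH : Gen H x)
include h hH

theorem gen_of_cmp {σ σ' : Type} [Fintype σ] [Fintype σ'] {v : σ → V.K} {w : σ' → V.K} {d : ℕ}
    (hc : Cmp k x v w d) : Gen (d • H) (tp v w) := by
  refine ⟨fun l p h0 y hy => ?_, fun p => ?_⟩
  · obtain ⟨i, hi⟩ := h.cov p
    have h1 := ord_loc (h.loc_of_mem ((hc i).1 l.1 l.2) hi) hy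
    have h2 := (gen_pow (gen_coord h hH hi) d).2 y hy
    rw [tp] at h0 ⊢
    rw [ordAlong_div h0 (pow_ne_zero d (h.ne i))] at h1
    omega
  · obtain ⟨i, hi⟩ := h.cov p
    obtain ⟨h1, a, h2, h3⟩ := hc i
    have h4 := fun l m => h.loc_of_mem (mul_mem (h2 l m) (h1 l m)) hi
    obtain ⟨l, -, hl⟩ := exists_un_of_sum Finset.univ
      (fun l => sum_mem fun m (_ : m ∈ Finset.univ) => h4 l m) (by rw [h3]; exact un_one p)
    obtain ⟨m, -, hm⟩ := exists_un_of_sum Finset.univ (h4 l) hl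
    rw [mul_comm] at hm
    have h5 := gen_un (gen_pow (gen_coord h hH hi) d)
      (un_of_mul (h.loc_of_mem (h1 l m) hi) (h.loc_of_mem (h2 l m) hi) hm)
    rw [div_mul_cancel₀ _ (pow_ne_zero d (h.ne i))] at h5
    exact ⟨(l, m), h5⟩

/-- a globally generated divisor `F` which contracts no curve: `N F - H` is globally generated -/
theorem gen_sub {F : V.Div} {σ : Type} [Fintype σ] {u : σ → V.K} (hF : Gen F u)
    (pos : ∀ p : Cv k x, p.dg u = 0 → p.dg x = 0) :
    ∃ (N : ℕ) (s : σ × ι → V.K), Gen (N • F - H) s := by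
  have h1 : ∀ l, ∃ t : ι → V.K, (∀ j m, ∀ p, GeneratesAt F (u l) p → t j * x m ∈ loc p) ∧
      (u l ≠ 0 → ∑ j, t j * x j = 1) := fun l => by
    by_cases h0 : u l = 0
    · exact ⟨0, fun _ _ _ hp => absurd h0 hp.1, fun c => absurd h0 c⟩
    obtain ⟨t, h2, h3⟩ := desc2 h.ne (hF.free h) pos h0
    refine ⟨t, fun j m p hp => int_loc (fun a ha => ?_) (h2 j m), fun _ => h3⟩
    refine (Algebra.adjoin_le (S := { loc p with algebraMap_mem' := h.const p }) ?_) ha
    rintro _ ⟨a, rfl⟩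
    exact div_mem_loc hp (hF.sec a p)
  choose t h2 h3 using h1
  have h4 : ∀ a : σ × ι × ι, ∃ N : ℕ, ∀ n, N ≤ n → ∀ p,
      Sec (n • F) (t a.1 a.2.1 * x a.2.2 * u a.1 ^ (n + 1) / u a.1) p := fun ⟨l, j, m⟩ => by
    by_cases u0 : u l = 0
    · exact ⟨0, fun n _ p h0 => absurd (by simp [u0]) h0⟩
    by_cases t0 : t l j * x m = 0
    · exact ⟨0, fun n _ p h0 => absurd (by simp only [t0, zero_mul, zero_div]) h0⟩
    obtain ⟨N, hN⟩ := clear (a := fun y : V.PrimeDiv => ordAlong (u l) y + F y)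
      (finite_neg t0 0) (S := Set.univ) (fun y _ => hF.sec l y.1 u0 y specializes_rfl)
      (fun y _ hy => by
        refine lt_of_le_of_ne (hF.sec l y.1 u0 y specializes_rfl) fun e => ?_
        have := ord_loc (y := y) (h2 l j m y.1 ⟨u0, fun y' hy' => by
          rw [eq_of_through hy']; exact e.symm⟩) specializes_rfl
        rw [Finsupp.zero_apply] at hy
        omega)
    refine ⟨N, fun n hn p _ y _ => ?_⟩
    have h5 := hN n hn y trivial
    rw [pow_succ, ← mul_assoc, mul_div_cancel_right₀ _ u0, ordAlong_mul t0 (pow_ne_zero n u0),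
      ordAlong_pow u0, Finsupp.smul_apply, nsmul_eq_mul]
    rw [Finsupp.zero_apply] at h5
    linarith
  choose N hN using h4
  obtain ⟨M, hM⟩ := (Set.finite_range N).bddAbove
  refine ⟨M, fun a => t a.1 a.2 * u a.1 ^ (M + 1) / u a.1, gen_quot hH ⟨fun a p => ?_, fun p => ?_⟩⟩
  · have h5 := hN (a.1.1, a.1.2, a.2) M (hM ⟨_, rfl⟩) p
    rwa [mul_right_comm, mul_div_right_comm] at h5
  · obtain ⟨l, hl⟩ := hF.gen p
    obtain ⟨j, -, hj⟩ := exists_un_of_sum Finset.univ (fun j => h2 l j j p hl)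
      (by rw [h3 l hl.1]; exact un_one p)
    refine ⟨((l, j), j), ?_⟩
    have h5 := gen_un (gen_pow hl M) hj
    rwa [tp, pow_succ, ← mul_assoc, mul_div_cancel_right₀ _ hl.1, mul_right_comm]

/-- the sum of a globally generated divisor and a positive multiple of `H` is ample -/
theorem ample_of {D : V.QDiv} {m j : ℕ} {G : V.Div} (hE : IsCartierMultiple D m (G + j • H))
    (hj : 0 < j) {σ : Type} [Fintype σ] {v : σ → V.K} (hG : Gen G v) : IsAmple D := by
  intro p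
  obtain ⟨i, hi⟩ := h.cov p
  obtain ⟨l, hl⟩ := hG.gen p
  obtain ⟨b, b1, b2, b3⟩ := h.frac_fin hi fun l' => div_mem_loc hl (hG.sec l' p)
  obtain ⟨a, ha⟩ := (h.mem i b).1 b1
  have hU : ∀ z, z ∈ V.X.basicOpen a ↔ z ∈ U i ∧ Un z b := fun z =>
    ⟨fun hz => ⟨V.X.basicOpen_le a hz, by
      rw [← ha, ← toK_germ' _ _ z (V.X.basicOpen_le a hz), un_toK]
      exact (Scheme.mem_basicOpen _ _ _ _).1 hz⟩, fun hz => by
      rw [Scheme.mem_basicOpen _ _ _ hz.1, ← un_toK, toK_germ' _ (h.gen i), ha]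
      exact hz.2⟩
  have xs : ∀ y : V.PrimeDiv, 0 ≤ ordAlong (x i) y + H y := fun y =>
    hH.sec i y.1 (h.ne i) y specializes_rfl
  have vs : ∀ y : V.PrimeDiv, 0 ≤ ordAlong (v l) y + G y := fun y =>
    hG.sec l y.1 hl.1 y specializes_rfl
  obtain ⟨N, hN⟩ := clear (a := fun y : V.PrimeDiv => ordAlong (x i) y + H y)
    (finite_neg b2.1 0) (S := Set.univ) (fun y _ => xs y) (fun y _ hy => coord_pos h hH fun c => by
      have := ord_loc (y := y) (h.loc_of_mem b1 c) specializes_rfl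
      rw [Finsupp.zero_apply] at hy
      omega)
  obtain ⟨c, hc, hc'⟩ : ∃ c, N ≤ c ∧ (N + 1) * j = c + 1 :=
    ⟨(N + 1) * j - 1, by nlinarith [Nat.sub_add_cancel (show 1 ≤ (N + 1) * j by nlinarith)],
      (Nat.sub_add_cancel (by nlinarith)).symm⟩
  have f0 : b * (v l * x i ^ j) ^ (N + 1) ≠ 0 :=
    mul_ne_zero b2.1 (pow_ne_zero _ (mul_ne_zero hl.1 (pow_ne_zero _ (h.ne i))))
  have e : ∀ y : V.PrimeDiv, ordAlong (b * (v l * x i ^ j) ^ (N + 1)) y + ((N + 1) • (G + j • H)) y =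
      (c * (ordAlong (x i) y + H y) + (ordAlong b y + (0 : V.Div) y)) +
        (N + 1 : ℕ) * (ordAlong (v l) y + G y) + (ordAlong (x i) y + H y) := fun y => by
    have h1 : ((N + 1 : ℕ) : ℤ) * j = c + 1 := by exact_mod_cast hc'
    rw [ordAlong_mul b2.1 (right_ne_zero_of_mul f0),
      ordAlong_pow (mul_ne_zero hl.1 (pow_ne_zero _ (h.ne i))),
      ordAlong_mul hl.1 (pow_ne_zero _ (h.ne i)), ordAlong_pow (h.ne i), Finsupp.smul_apply,
      Finsupp.add_apply, Finsupp.smul_apply, nsmul_eq_mul, nsmul_eq_mul, Finsupp.zero_apply]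
    linear_combination (ordAlong (x i) y + H y) * h1
  refine ⟨_, (N + 1) • (G + j • H), b * (v l * x i ^ j) ^ (N + 1), V.X.basicOpen a,
    mult_nsmul hE N.succ_pos, fun _ y _ => ?_, (hU p).2 ⟨hi, b2⟩, (h.aff i).basicOpen a, fun z => (hU z).trans ⟨fun hz => ?_, fun hz => ?_⟩⟩
  · rw [e]
    exact add_nonneg (add_nonneg (hN c hc y trivial) (mul_nonneg (Int.natCast_nonneg _) (vs y)))
      (xs y)
  · obtain ⟨l', hl'⟩ := hG.gen z
    have h1 : Un z (v l' / v l)⁻¹ := ⟨inv_ne_zero (div_ne_zero hl'.1 hl.1), by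
      rw [inv_div]; exact div_mem_loc hl' (hG.sec l z), by
      rw [inv_inv, ← inv_mul_cancel_left₀ b2.1 (v l' / v l)]
      exact mul_mem hz.2.2.2 (h.loc_of_mem (b3 l') hz.1)⟩
    have h2 := gen_un hl' h1
    rw [inv_div, div_mul_cancel₀ _ hl'.1] at h2
    exact gen_un (gen_pow (gen_mul h2 (gen_pow (gen_coord h hH hz.1) j)) _) hz.2
  · have h1 : ∀ y : V.PrimeDiv, y.Through z → ordAlong (x i) y + H y = 0 ∧ ordAlong b y = 0 :=
      fun y hy => by
        have h2 := hz.2 y hy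
        have h3 := hN c hc y trivial
        have h4 := mul_nonneg (Int.natCast_nonneg (N + 1)) (vs y)
        have h5 := xs y
        rw [e] at h2
        have h6 : ordAlong (x i) y + H y = 0 := by omega
        rw [h6, mul_zero, Finsupp.zero_apply] at h2 h3
        exact ⟨h6, by omega⟩
    obtain ⟨i', hi'⟩ := h.cov z
    exact ⟨(h.unit i' i z hi').2 (un_div (gen_coord h hH hi') ⟨h.ne i, fun y hy => (h1 y hy).1⟩),
      un_of_ord b2.1 fun y hy => (h1 y hy).2⟩

omit h hH in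
theorem cartier_gen {F : V.Div} {σ : Type} {u : σ → V.K} (hF : Gen F u) : IsCartier F := fun p =>
  (hF.gen p).elim fun _ hl => ⟨_, hl⟩

theorem dg_gen {F : V.Div} {σ : Type} [Fintype σ] {u : σ → V.K} (hF : Gen F u) {p : Cv k x}
    {C : Curve V} {j : C.C.functionField →ₐ[k] p.L} (hp : Over U p C j) {e : ℤ}
    (he : C.IsDegree F e) : p.dg u = mult j * e ∧ 0 ≤ e := by
  have h1 := deg_eq h hp hH (D := ⟨σ, u, 0⟩) (by rwa [zero_smul, add_zero]) he
  rw [Cv.deg, Nat.cast_zero, zero_mul, sub_zero] at h1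
  obtain ⟨z, hz⟩ := dg.ex k _ ι σ x p u (hF.free h)
  have h2 := hg.nn k p.L inferInstance σ z
  rw [← dg.eq k _ ι σ x p u z hz, h1] at h2
  exact ⟨h1, nonneg_of_mul_nonneg_right h2 (Nat.cast_pos.2 (mult_pos j))⟩

/-- a strictly nef and numerically semiample divisor is ample -/
theorem ample_of_num
    (key : ∀ W : Cd V.K, Free k x W.s → (∀ p : Cv k x, p.deg W ≤ 0) → Amp k x W) {D : V.QDiv}
    (hD : IsStrictlyNef D) (hs : IsNumSemiample D) : IsAmple D := by
  obtain ⟨⟨m, E, hE⟩, hpos⟩ := hD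
  obtain ⟨L, ⟨m', F, a1, a2, a3, a4⟩, hL⟩ := hs
  obtain ⟨σ, _, u, hF⟩ := gen_of_gg a4
  have hHc := cartier_gen hH
  have hm : (0 : ℚ) < m := Nat.cast_pos.2 hE.1
  have hm' : (0 : ℚ) < m' := Nat.cast_pos.2 a1
  obtain ⟨N, s, hs⟩ := gen_sub h hH hF fun p hp => by
    rcases const_or_curve h p with h1 | ⟨C, j, hC⟩
    · simpa [Cv.deg] using h1 ⟨ι, x, 0⟩
    · obtain ⟨e, he⟩ := exists_isDegree C a3
      have h1 := hpos C
      rw [hL C, inter_eq ⟨a1, a2, a3⟩ he, div_pos_iff_of_pos_right hm', Int.cast_pos] at h1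
      rw [(dg_gen h hH hF hC he).1] at hp
      exact absurd hp (mul_pos (Nat.cast_pos.2 (mult_pos j)) h1).ne'
  have hc := cartier_sub (cartier_nsmul hHc 2) (cartier_nsmul hE.2.2 (2 * (N + 1) * m'))
  obtain ⟨W, hW⟩ := exists_rep h hH hc
  obtain ⟨j, τ, _, v, j0, hv⟩ := key W (hW.free h) fun p => by
    rcases const_or_curve h p with h1 | ⟨C, j, hC⟩
    · exact (h1 W).le
    obtain ⟨eF, b1⟩ := exists_isDegree C a3
    obtain ⟨eE, b2⟩ := exists_isDegree C hE.2.2
    obtain ⟨eH, b3⟩ := exists_isDegree C hHc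
    obtain ⟨eW, b4⟩ := exists_isDegree C hc
    obtain ⟨eS, b5⟩ := exists_isDegree C (cartier_gen hs)
    have c1 := isDegree_add (cartier_gen hs) hHc b5 b3
    have c2 := isDegree_add hc (cartier_nsmul hE.2.2 _) b4
      (isDegree_nsmul hE.2.2 b2 (2 * (N + 1) * m'))
    rw [sub_add_cancel] at c1 c2
    have c3 := isDegree_unique (cartier_nsmul a3 N) c1 (isDegree_nsmul a3 b1 N)
    have c4 := isDegree_unique (cartier_nsmul hHc 2) c2 (isDegree_nsmul hHc b3 2)
    have c5 := hL C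
    rw [inter_eq hE b2, inter_eq ⟨a1, a2, a3⟩ b1, div_eq_div_iff hm.ne' hm'.ne'] at c5
    have c6 : eE * m' = eF * m := by exact_mod_cast c5
    have c7 := (dg_gen h hH hF hC b1).2
    have c8 := (dg_gen h hH hs hC b5).2
    have c9 : eF ≤ eF * m := le_mul_of_one_le_right c7 (by exact_mod_cast hE.1)
    have c10 := mul_le_mul_of_nonneg_left c9 (Int.natCast_nonneg N)
    rw [deg_eq h hC hH hW b4]
    refine mul_nonpos_of_nonneg_of_nonpos (Int.natCast_nonneg _) ?_
    push_cast at c4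
    nlinarith
  have hG := gen_quot (gen_pw hW j0) (gen_of_cmp h hH hv)
  refine ample_of h hH (m := j * (2 * (N + 1) * m' * m)) ?_ j0 hG
  convert mult_nsmul (mult_nsmul hE (a := 2 * (N + 1) * m') (by positivity)) j0 using 1
  module

omit h hH in
/-- **generalised abundance for generalised klt pairs; strictly nef divisors** -/
theorem full (hff : ∀ n, FF2 k n) (b : Bir Y X) {n : ℕ} {ω : Y.Form n} {κ : Y.Div}
    {B M G : Y.QDiv} {D : X.QDiv} (hd : Y.dim = n) (h0 : ω.Nonzero) (hκ : IsDivisorOf κ ω)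
    (hM : IsNef M) (hP : b.Pull D (toQ κ + B + M))
    (hB : ∀ E : Y.PrimeDiv, coheight (b.f E.1) = 1 → 0 ≤ B E) (hl : IsKlt ω κ B) (hG : IsPsef G)
    (hGB : ∀ E : Y.PrimeDiv, coheight (b.f E.1) = 1 → G E ≤ (toQ κ + B) E) (hD : IsNef D) :
    IsNumSemiample D ∧ ∀ N : X.QDiv, IsStrictlyNef N → IsNumSemiample N → IsAmple N := by
  obtain ⟨ι, _, _, x, U, h⟩ := exists_atlV X
  obtain ⟨H, hH⟩ := exists_gen h (free_coord h)
  obtain ⟨h1, h2⟩ := main hff b hd h0 hκ hM hP hB hl hG hGB hD h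
  exact ⟨h1, fun N => ample_of_num h hH h2⟩

end Vale.Agent.N270
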