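import Vale.Agent.N270.Biy

/-!
# N270: generalised abundance for generalised pairs, in the language of function fields
-/

open Set
open Vale.Agent.P297 (Place)
open Vale.Agent.P285N.Brep (jac Fr)
open Vale.Agent.P285.H281.FD (Bd IsLB IsSec NZ NumSemiample)
open Vale.Agent.P281Z Vale.Agent.P280Z Vale.Agent.P270L
open Vale.Agent.P280Z.Co (ct ct_ok)
open Vale.Agent.P285N.St (Birat SubPair Iso Psef SubKltO)

noncomputable section

namespace Vale.Agent.N270

section alg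

variable {k K : Type} [Field k] [Field K] [Algebra k K] {ι : Type} {x : ι → K} {n : ℕ} {P : Place K}
  {i : ι}

theorem ch_mem (hk : ∀ a, algebraMap k K a ∈ P.ring) (hi : ∀ j, x j / x i ∈ P.ring) :
    ∀ f ∈ ch k x i, f ∈ P.ring := fun f hf => by
  induction hf using Algebra.adjoin_induction with
  | mem f hf => obtain ⟨j, rfl⟩ := hf; exact hi j
  | algebraMap c => exact hk c
  | add f g _ _ hf hg => exact add_mem hf hg
  | mul f g _ _ hf hg => exact mul_mem hf hg

theorem nx_of (hk : ∀ a, algebraMap k K a ∈ P.ring) (hX : ¬ Xc k n x P) : ∃ i, Nx k n x P i := by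
  simp only [Xc, not_forall, not_exists, not_and] at hX
  obtain ⟨i, hi, d, w, hd, hw⟩ := hX
  let u : Fin d → ch k x i := fun a => ⟨x (w a) / x i, Algebra.subset_adjoin ⟨_, rfl⟩⟩
  refine ⟨i, hk, hi, d, w, hd, fun F F0 => le_antisymm ?_ (not_lt.1 (hw F F0))⟩
  rw [← P.mem_ring_iff]
  exact (MvPolynomial.comp_aeval_apply u (ch k x i).val F) ▸ ch_mem hk hi _ (Subtype.prop _)

open NexH HgH in
theorem nex2 [CharZero k] [Fintype ι] {y t : Fin n → K} {δ D : Fin n → Derivation k K K}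
    (hM : Model k x) (hF : Fr y δ) (hD : Ad k P t D) (h : Nx k n x P i) : ∃ e : Fin n → ι,
      (jac δ fun a => x (e a) / x i) ≠ 0 ∧ kap k y P + P.ord (jac δ fun a => x (e a) / x i) ≤ 0 := by
  obtain ⟨d, w, rfl, hw⟩ := h.ind
  have hA := ch_mem h.cst h.mem
  have := hF.fin
  have ha : Algebra.IsAlgebraic (Algebra.adjoin k (range y)) K :=
    IntermediateField.isAlgebraic_adjoin_iff_top.1 inferInstance
  have hd : Algebra.trdeg k K ≤ (d + 1 : ℕ) :=
    (Algebra.IsAlgebraic.trdeg_le_cardinalMk k (range y)).trans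
      (Cardinal.mk_range_le.trans (by simp))
  let u : Fin d → ch k x i := fun a => ⟨x (w a) / x i, Algebra.subset_adjoin ⟨_, rfl⟩⟩
  obtain ⟨e, he⟩ := unit hA (fun f => loc (hM.normal i) hA (hM.frac i) hd (w := u) fun F F0 c =>
    ((congrArg P.val (MvPolynomial.comp_aeval_apply u (ch k x i).val F)).symm.trans_lt c).ne
      (hw F F0)) hD
  have j0 : jac D (fun a => x (e a) / x i) ≠ 0 := fun c => by simp [c] at he
  have j1 := ord_le P one_ne_zero (P.val.map_one.trans_le he)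
  rw [kap_row.chain k K _ y δ hF D] at j0 j1
  obtain ⟨j2, j3⟩ := mul_ne_zero_iff.1 j0
  rw [P.ord_mul j2 j3, P.ord_one] at j1
  refine ⟨e, j3, ?_⟩
  rw [kap_row.eq k K _ t y D P hD]
  omega

theorem low2 (k : Type) [Field k] [IsAlgClosed k] [CharZero k] : FF2 k 0 := by
  intro K _ _ ι ι' _ _ _ _ x x' y δ q C G M D Z W h fW
  classical
  have hb : ∀ f : K, ∃ c, algebraMap k K c = f := fun f => by
    have := h.fr.fin
    have h1 : IsAlgebraic (IntermediateField.adjoin k (range y)) f := .of_finite _ _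
    rw [range_eq_empty, IntermediateField.adjoin_empty] at h1
    have : Algebra.IsAlgebraic k (⊥ : IntermediateField k K) :=
      (IntermediateField.botEquiv k K).symm.isAlgebraic
    have h2 : IsIntegral k f := (h1.restrictScalars k).isIntegral
    exact minpoly.mem_range_of_degree_eq_one k f
      (IsAlgClosed.degree_eq_one_of_irreducible k (minpoly.irreducible h2))
  have h0 : ∀ (p : Cv k x) (σ : Type) [Fintype σ] (s : σ → K), p.dg s = 0 := fun p σ _ s => by
    unfold Cv.dg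
    split_ifs with he
    · obtain ⟨z0, τ, hτ, hz⟩ := he.choose_spec
      refine S.ht_const z0 fun l => ?_
      obtain ⟨c, hc⟩ := hb (τ * s l)
      have : (⟨τ * s l, hτ l⟩ : ch k x p.i) = algebraMap k _ c := Subtype.ext hc.symm
      exact ⟨c, by rw [hz, this, AlgHom.commutes]⟩
    · rfl
  have hm : ∀ i f, f ∈ ch k x i := fun i f => (hb f).elim fun c e => e ▸ algebraMap_mem _ c
  obtain ⟨m, hm0⟩ := Function.ne_iff.1 (HybH.free_ne fW)
  refine ⟨⟨1, ι, inferInstance, x, one_pos, HybH.free_self h.md.ne, fun p => by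
    simp [Cv.deg, h0]⟩, fun _ => ⟨1, Unit, inferInstance, fun _ => 1, one_pos, fun i =>
      ⟨fun _ _ => hm _ _, fun _ l => if l = m then x i ^ (1 * (W.c + 1)) / W.s m else 0,
        fun _ _ => hm _ _, ?_⟩⟩⟩
  have := h.md.ne i
  have : W.s m ≠ 0 := hm0
  simp only [ite_mul, zero_mul, Finset.sum_ite_eq', Finset.mem_univ, if_true, pw,
    Finset.univ_unique, Finset.sum_singleton]
  field_simp

theorem cmp_of_eqv [Fintype ι] (hM : Model k x) {σ σ' : Type} [Fintype σ] [Fintype σ'] {u : σ → K}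
    {v : σ' → K} {d : ℕ} (h : Eqv k (tp u v) (pw x d)) : Cmp k x u v d := fun i => by
  have x0 := pow_ne_zero d (hM.ne i)
  have e : ∀ V : ValuationSubring K, (∀ f ∈ ch k x i, f ∈ V) →
      mv V (tp u v) = V.valuation (x i ^ d) := fun V hV => by
    rw [h V fun a => hV _ (algebraMap_mem _ a)]
    refine le_antisymm (Finset.sup_le fun j _ => ?_)
      (Finset.le_sup (f := fun j => V.valuation (pw x d j)) (Finset.mem_univ i))
    have := (V.valuation_le_one_iff _).2 (pow_mem (hV _ (DgH.gen x j i)) d)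
    rwa [div_pow, map_div₀, div_le_one₀ (zero_lt_iff.2 (by simpa using x0))] at this
  have m : ∀ l m, u l * v m / x i ^ d ∈ ch k x i := fun l m => by_contra fun c => by
    have : IsIntegrallyClosedIn (ch k x i).toSubring K :=
      Subring.isIntegrallyClosedIn_iff.2 (hM.normal i)
    obtain ⟨V, hV, h'⟩ := (ch k x i).toSubring.exists_le_valuationSubring_of_isIntegrallyClosedIn c
    refine h' ((V.valuation_le_one_iff _).1 ?_)
    rw [map_div₀, div_le_one₀ (zero_lt_iff.2 (by simpa using x0)), ← e V fun f hf => hV hf]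
    exact Finset.le_sup (f := fun j => V.valuation (tp u v j)) (Finset.mem_univ (l, m))
  refine ⟨m, ?_⟩
  let g : σ × σ' → ch k x i := fun o => ⟨_, m o.1 o.2⟩
  by_cases c : Ideal.span (range g) = ⊤
  · obtain ⟨a, ha⟩ := Ideal.mem_span_range_iff_exists_fun.1 ((Ideal.eq_top_iff_one _).1 c)
    refine ⟨fun l m => a (l, m), fun l m => (a (l, m)).2, ?_⟩
    have := congrArg Subtype.val ha
    rw [Fintype.sum_prod_type] at this
    simpa [g] using this
  obtain ⟨V, h1, h2⟩ := Ideal.image_subset_nonunits_valuationSubring (A := (ch k x i).toSubring) _ c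
  have p : 0 < V.valuation (x i ^ d) := zero_lt_iff.2 (by simpa using x0)
  refine absurd (e V fun f hf => h1 hf) (ne_of_lt ((Finset.sup_lt_iff p).2 fun o _ => ?_))
  have := V.mem_nonunits_iff.1 (h2 ⟨g o, Ideal.subset_span ⟨o, rfl⟩, rfl⟩)
  change V.valuation (u o.1 * v o.2 / x i ^ d) < 1 at this
  rwa [map_div₀, div_lt_one₀ p] at this

end alg

open TopH Gm HybH

theorem ana2 (gay : GAY) (n : ℕ) : FF2 ℂ n := by
  have R := rows
  rcases n with _ | n
  · exact low2 ℂ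
  intro K _ _ ι ι' _ _ _ _ x x' y δ q C G M D Z W H fW
  classical
  obtain ⟨Y₀⟩ := R.model _ K y n.succ_pos (fr_ind H.fr) H.fr.fin
  have x0 := H.md.ne
  have x1 := H.ne
  let r : Place K → ℤ := fun P => cf x' P C - q * kap ℂ y P
  have fr : ∀ Y : Gm (n + 1) K, Y.Fs r := fun Y =>
    (fs_cf R.sys x' C).of (R.can _ _ Y y δ H.fr).1 fun P a b => by simp only [r, a, b]; ring
  obtain ⟨Y, hx', hN⟩ := R.reso _ _ Y₀ _ ι' x' (fr Y₀) fun e =>
    x1 (Classical.arbitrary ι') (congrFun e _)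
  have hx := R.sys.free _ _ Y _ _ x' x hx' H.fx
  replace hN : Y.Nc {P | r P ≠ 0} := hN.mono fun P hP => (em (Y₀.Pr P)).imp (⟨·, hP⟩) id
  have cp := R.tb.cp _ _ Y
  let a : Place K → ℤ := fun P => max 0 (-r P)
  let b : Place K → ℤ := fun P => r P + q * a P
  have q1 : (1 : ℤ) ≤ q := by exact_mod_cast H.q0
  have a0 : ∀ P, 0 ≤ a P := fun P => le_max_left _ _
  have b0 : ∀ P, 0 ≤ b P := fun P => by
    have := le_max_right 0 (-r P)
    simp only [b]
    nlinarith [a0 P]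
  have fa : Y.Fs a := (fr Y).of (fr Y) fun P h _ => by simp only [a, h]; rfl
  have fb : Y.Fs b := (fr Y).of fa fun P h k => by simp only [b, h, k]; ring
  have fC := fs_cf (M := Y) R.sys x' C
  have fG := fs_cf (M := Y) R.sys x' G
  have fM := fs_cf (M := Y) R.sys x' M
  have fD := fs_cf (M := Y) R.sys x D
  have fZ := fs_cf (M := Y) R.sys x Z
  have fx := R.sys.fs _ _ Y _ x
  obtain ⟨fk, ck⟩ := R.can _ _ Y y δ H.fr
  have lC := R.tb.lb _ _ Y _ fC
  have lG := R.tb.lb _ _ Y _ fG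
  have lM := R.tb.lb _ _ Y _ fM
  have lD := R.tb.lb _ _ Y _ fD
  have lZ := R.tb.lb _ _ Y _ fZ
  have la := R.tb.lb _ _ Y _ fa
  have lb := R.tb.lb _ _ Y _ fb
  have one : ∀ c : Place K → ℤ, (∀ P, 0 ≤ c P) → Y.Sc c 1 := fun c h =>
    .inr fun P _ => by rw [P.ord_one, zero_add]; exact h P
  have dE := R.tb.div _ _ Y a 1 fa (one a a0) one_ne_zero
  have klt : ∀ P, Y.Pr P → r P < q := fun P hP => by
    by_cases h : r P = 0
    · omega
    obtain ⟨z, hz⟩ := pr_iff.1 hP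
    obtain ⟨t, t1, t2⟩ := hN z
    obtain ⟨i, hi⟩ := t2 P h hz
    obtain ⟨D, -, D1, D2⟩ := R.dro _ _ Y z t t1
    have k := H.klt P (R.dvl ℂ K _ t D P (pr_const hP) (D2 P hz) i hi.ord) D (D2 P hz).pre
      (R.kap.ne ℂ K _ t y D δ D1 H.fr)
    rw [← R.kap.eq ℂ K _ t y D P (D2 P hz)] at k
    simp only [r]
    linarith
  have exc : ∀ P, Y.Pr P → 0 < a P → Xc ℂ (n + 1) x P := fun P hP h => by
    obtain ⟨z, hz⟩ := pr_iff.1 hP
    obtain ⟨t, t1, -⟩ := hN z
    obtain ⟨D, -, -, D2⟩ := R.dro _ _ Y z t t1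
    by_contra k
    obtain ⟨i, hi⟩ := nx_of (pr_const hP) k
    obtain ⟨e, e1, e2⟩ := nex2 H.md H.fr (D2 P hz) hi
    have k1 := (H.bdy P i hi e).resolve_right e1
    have k2 : 0 ≤ r P := by
      simp only [r]
      nlinarith
    simp only [a] at h
    omega
  have sub : SubPair (n + 1) (Y.tb a) (Y.se 1) (Y.tb b) (Y.se 1) q (Y.tb fun P => cf x' P C) := by
    have lK := R.lbc _ Y.V
    refine ⟨R.tb.div _ _ Y b 1 fb (one b b0) one_ne_zero, H.q0, R.kla _ _ Y a b q fa fb a0 b0 H.q0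
      (hN.mono fun P hP h => ?_) fun P hP => ?_, lC,
      iso_cls (V := Y.V) (lb_mul lC (lb_pow la q)) (lb_mul (lb_pow lK q) lb) ?_⟩
    · simp only [mem_ofPred_eq, a, b, h] at hP
      simp at hP
    · have := klt P hP
      simp only [b]
      linarith
    · rw [P285Z.St.logCan, cls_mul lC (lb_pow la q), cls_mul (lb_pow lK q) lb, cls_pow la, cls_pow lK, ← ck,
        ← natCast_zsmul, ← natCast_zsmul, ← R.tb.smul _ _ Y _ _ fa, ← R.tb.smul _ _ Y _ _ fk,
        ← R.tb.add _ _ Y _ _ fC (fa.smul _), ← R.tb.add _ _ Y _ _ (fk.smul _) fb]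
      congr 2
      funext P
      simp only [Pi.add_apply, Pi.smul_apply, smul_eq_mul, b, r]
      ring
  have nM : P285N.Tp.Nf Y.V (Y.tb fun P => cf x' P M) :=
    R.nfc.nef _ Y.V _ cp lM fun B f hf hB => by
      obtain ⟨p, hp⟩ := deg R hx' x1 hf hB
      exact (Int.cast_nonneg (H.nM p)).trans (hp M H.fM).ge
  have eD : ct.c1 Y.V ((Y.tb fun P => cf x P D).mul (Y.tb fun P => cf x P Z)) =
      (Y.cl fun P => cf x P D) + Y.cl fun P => cf x P Z := ct_ok.c1.mul Y.V _ _ lD lZ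
  have nD : P285N.Tp.Nf Y.V ((Y.tb fun P => cf x P D).mul (Y.tb fun P => cf x P Z)) :=
    R.nfc.nef _ Y.V _ cp (lb_mul lD lZ) fun B f hf hB => by
      obtain ⟨p, hp⟩ := deg R hx x0 hf hB
      have h1 := hp D H.fD
      have h2 := hp Z H.fZ
      simp only [dgc] at h1 h2 ⊢
      rw [eD, map_add, map_add, h1, h2, ← Int.cast_add]
      exact Int.cast_nonneg (H.nD p)
  have ps : Psef (n + 1) (Y.tb fun P => cf x' P G) :=
    R.psa _ Y.V _ cp lG fun J _ B f hf hB ε hε => by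
      choose p hp using fun j => deg R hx' x1 (hf j) (hB j)
      obtain ⟨E, m, hm, e1, e2, e3⟩ := H.psf J p ε hε
      refine ⟨Y.tb fun P => cf x' P E, Y.se 1, m, hm, R.tb.div _ _ Y _ 1 (fs_cf R.sys x' E)
        (.inr fun P hP => ?_) one_ne_zero, fun j => ?_⟩
      · rw [P.ord_one, zero_add]
        exact R.sys.eff _ _ Y ι' x' E hx' e2 P hP
      · have h1 := hp j E e1
        have h2 := hp j G H.fG
        simp only [cl] at h1 h2
        rw [h1, h2]
        exact e3 j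
  have eL : cls (n + 1) ((Y.tb fun P => cf x P D).mul (Y.tb fun P => cf x P Z)) =
      cls (n + 1) ((Y.tb fun P => cf x' P C).mul (Y.tb fun P => cf x' P M)) := by
    rw [cls_mul lD lZ, cls_mul lC lM, ← R.tb.add _ _ Y _ _ fD fZ, ← R.tb.add _ _ Y _ _ fC fM]
    exact congrArg _ (R.tb.congr _ _ Y _ _ fun P hP => (H.rel P (pr_const hP)).symm)
  let e := (Fintype.equivFin ι).symm
  have lA := R.tb.lb _ _ Y _ fx
  have sA := fun i => R.tb.sec _ _ Y _ (x (e i)) fx (R.sys.sc _ _ Y _ x _)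
  have gA : ∀ k z, z ∈ (Y.tb fun P => mx P x).U k → ∃ l, Y.se (x (e l)) k z ≠ 0 := fun k z hz => by
    obtain ⟨l, hl⟩ := hx z
    obtain ⟨l, rfl⟩ := e.surjective l
    exact ⟨l, (R.tb.nz _ _ Y _ _ z fx (R.sys.sc _ _ Y _ x _)).2
      ((R.sys.gen _ _ Y _ x hx z _).2 hl) k hz⟩
  obtain ⟨c, hc⟩ := (cmp R hx x0 H.fD).1
  obtain ⟨c', hc'⟩ := (cmp R hx x0 H.fZ).1
  obtain ⟨w, hw⟩ := R.jnz ℂ K ι x _ y δ H.md H.fr (Classical.arbitrary ι)
  have im := R.imm _ _ Y ι x _ e y δ _ w hx H.fr (x0 _) hw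
  have h1 : P285W.J.Nf ct Y.V (((c + c' : ℕ) : ℝ) • ct.c1 Y.V (Y.tb fun P => mx P x) -
      ct.c1 Y.V ((Y.tb fun P => cf x P D).mul (Y.tb fun P => cf x P Z))) :=
    (congrArg (P285W.J.Nf ct Y.V) (by rw [eD]; simp only [cl]; push_cast; module)).mp
      (P285W.J.nf_add ct_ok hc hc')
  have h2 := P285L.Cn.upD ct_ok cp.prj lC lM nM
    (c1_cls (V := Y.V) (lb_mul lD lZ) (lb_mul lC lM) eL ▸ h1)
  let a' : Place K → ℤ := fun P => max 0 (cf x' P G - cf x' P C)
  have a1 : ∀ P, 0 ≤ a' P := fun P => le_max_left _ _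
  have fa' : Y.Fs a' := fG.of fC fun P h k => by simp only [a', h, k]; rfl
  let b' : Place K → ℤ := fun P => cf x' P C + a' P - cf x' P G
  have fb' : Y.Fs b' := (fC.add fa').of fG fun P h k => by
    simp only [b', k, sub_zero]; exact h
  have dB := R.tb.div _ _ Y b' 1 fb' (one b' fun P => by
    have := le_max_right 0 (cf x' P G - cf x' P C)
    simp only [b', a']
    omega) one_ne_zero
  have ps' := psef_exc cp lA sA gA im (R.tb.div _ _ Y a' 1 fa' (one a' a1) one_ne_zero)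
    (R.exc n K Y ι x a' hx fa' a1 fun P hP h => by
      by_contra k
      obtain ⟨i, hi⟩ := nx_of (pr_const hP) k
      have := H.low P i hi
      simp only [a'] at h
      omega) lC lG h2 ps ((congrArg (P285S.Ef Y.V) (by
        rw [eq_sub_iff_add_eq, ← R.tb.add _ _ Y _ _ fb' fG, ← R.tb.add _ _ Y _ _ fC fa']
        congr 2
        funext P
        simp only [Pi.add_apply, b', sub_add_cancel])).mp (ef_of (W := Y.V) dB.lb dB.sec dB.nz))
  have bir := biy2 cp lA sA gA im dE (R.exc n K Y ι x a hx fa a0 exc) sub (lb_mul lD lZ) nD h1 h2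
    (R.sat _ _ Y ι x _ e D Z hx H.fD H.fZ)
  refine ⟨con R hx H.md H.fD H.fZ (gay _ Y.V ⟨_, _, _, _, Y.tb a, Y.se 1⟩ _ _ q _ _
    ⟨cp.conn, cp.prj, bir⟩ sub ps' lM nM (iso_cls (lb_mul lD lZ) (lb_mul lC lM) eL)), fun hW => ?_⟩
  have f1 := fs_cf (M := Y) R.sys x W
  have f2 := f1.smul (-1)
  have l2 := R.tb.lb _ _ Y _ f2
  have e2 : ct.c1 Y.V (Y.tb ((-1 : ℤ) • fun P => cf x P W)) = -Y.cl fun P => cf x P W := by
    simpa [cl] using cl_smul R.tb f1 (-1)
  have pW := R.sys.free _ _ Y _ _ x _ hx fW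
  obtain ⟨j, j0, bj⟩ := semi2 (c := W.c) cp lA sA gA im dE (R.exc n K Y ι x a hx fa a0 exc) sub l2
    (R.nfc.nef _ Y.V _ cp l2 fun B f hf hB => by
      obtain ⟨p, hp⟩ := deg R hx x0 hf hB
      have h3 := hp W fW
      simp only [dgc] at h3 ⊢
      rw [e2, map_neg, map_neg, h3, neg_nonneg]
      exact Int.cast_nonpos.2 (hW p))
    ((congrArg (P285W.J.Nf ct Y.V) (by rw [e2, cl_cf R.tb R.sys]; simp only [cl]; module)).mp
      (P285W.J.nn_nf ct_ok (ct_ok.c1.bpf Y.V _ (R.tb.lb _ _ Y _ (R.sys.fs _ _ Y _ W.s))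
        (R.sys.bpf _ _ Y _ W.s pW)))) h2
  have l3 := lb_mul (lb_pow l2 1) lA
  obtain ⟨σ, _, u, u1, u2⟩ := R.sys.ex _ _ Y _ _ ((f2.add fx).smul j) (lb_pow l3 j) bj (by
    rw [R.tb.smul _ _ Y _ _ (f2.add fx), R.tb.add _ _ Y _ _ f2 fx, cls_pow l3,
      cls_mul (lb_pow l2 1) lA, cls_pow l2, one_smul, natCast_zsmul])
  have p1 := R.sys.pow _ _ Y _ _ j pW
  refine ⟨j, σ, inferInstance, u, j0, cmp_of_eqv H.md (R.sys.eqv _ _ Y _ _ _ _
    (R.sys.mul _ _ Y _ _ _ _ u1 p1) (R.sys.pow _ _ Y _ _ _ hx) fun P hP => ?_)⟩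
  rw [R.mxa.mul K P _ _ _ _ u1.ne p1.ne, R.mxa.pow K P _ _ _ pW.ne, R.mxa.pow K P _ _ _ hx.ne,
    u2 P hP]
  simp only [Pi.smul_apply, Pi.add_apply, smul_eq_mul, P270L.cf]
  push_cast
  ring

/-- generalised abundance for generalised klt pairs over every algebraically closed field of
characteristic zero -/
theorem ff2_of (gay : GAY) (k : Type) [Field k] [IsAlgClosed k] [CharZero k] (n : ℕ) : FF2 k n :=
  trans2 n (ana2 gay n) k

end Vale.Agent.N270
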