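import Vale.Agent.P270L.T.All
import Vale.Agent.P270L.BDefs

/-!
# N270: generalised pairs in the language of function fields, and the change of the ground field
-/

open Set MvPolynomial
open Vale.Agent.P297 (Place PlaceOver IsFF)
open Vale.Agent.P285N.Brep (jac Fr)
open Vale.Agent.P270L

noncomputable section

namespace Vale.Agent.N270

set_option linter.unusedSectionVars false

section defs

variable (k : Type) {K : Type} [Field k] [Field K] [Algebra k K] {ι ι' : Type}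

/-- the place `P` is a divisor of the model `x` which meets the chart `i` -/
structure Nx (n : ℕ) (x : ι → K) (P : Place K) (i : ι) : Prop where
  cst : ∀ a, algebraMap k K a ∈ P.ring
  mem : ∀ j, x j / x i ∈ P.ring
  ind : ∃ (d : ℕ) (w : Fin d → ι), d + 1 = n ∧
    ∀ F : MvPolynomial (Fin d) k, F ≠ 0 → P.val (aeval (fun a => x (w a) / x i) F) = 1

variable {k} [Fintype ι] [Fintype ι']

/-- the hypotheses: the model `x'` dominates the normal model `x`; on `x'`, `C = q (K + B)` with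
`B` sub-klt and effective at the divisors of `x`, `G` is pseudo-effective and at most `C` at these
divisors, `M` is nef, and `C + M` is the pull back of the nef divisor `D + Z` of `x` -/
structure Hyp2 (x : ι → K) (x' : ι' → K) {n : ℕ} (y : Fin n → K) (δ : Fin n → Derivation k K K)
    (q : ℕ) (C G M D Z : Cd K) : Prop where
  md : Model k x
  ne : ∀ i, x' i ≠ 0
  fx : Free k x' x
  fr : Fr y δ
  q0 : 0 < q
  fC : Free k x' C.s
  fG : Free k x' G.s
  fM : Free k x' M.s
  fD : Free k x D.s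
  fZ : Free k x Z.s
  rel : ∀ P : Place K, (∀ a, algebraMap k K a ∈ P.ring) →
    cf x' P C + cf x' P M = cf x P D + cf x P Z
  bdy : ∀ P i, Nx k n x P i → ∀ e : Fin n → ι,
    0 ≤ q * P.ord (jac δ fun a => x (e a) / x i) + cf x' P C ∨ (jac δ fun a => x (e a) / x i) = 0
  low : ∀ P i, Nx k n x P i → cf x' P G ≤ cf x' P C
  klt : Klt k x' y q C
  psf : Psf k x' G
  nM : ∀ p : Cv k x', 0 ≤ p.deg M
  nD : ∀ p : Cv k x, 0 ≤ p.deg D + p.deg Z

variable (k) in
/-- a multiple of `H - W` is generated by its sections -/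
def Amp (x : ι → K) (W : Cd K) : Prop :=
  ∃ (j : ℕ) (σ : Type) (_ : Fintype σ) (u : σ → K), 0 < j ∧ Cmp k x u (pw W.s j) (j * (W.c + 1))

variable (k) in
/-- the conclusions: `D + Z` is numerically semiample, and `H - W` is semiample if `-W` is nef -/
def Out (x : ι → K) (D Z W : Cd K) : Prop :=
  Con k x D Z ∧ ((∀ p : Cv k x, p.deg W ≤ 0) → Amp k x W)

end defs

/-- generalised abundance for generalised pairs in dimension `n` over `k` -/
def FF2 (k : Type) [Field k] (n : ℕ) : Prop :=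
  ∀ (K : Type) [Field K] [Algebra k K] (ι ι' : Type) [Fintype ι] [Nonempty ι] [Fintype ι']
    [Nonempty ι'] (x : ι → K) (x' : ι' → K) (y : Fin n → K) (δ : Fin n → Derivation k K K) (q : ℕ)
    (C G M D Z W : Cd K), Hyp2 x x' y δ q C G M D Z → Free k x W.s → Out k x D Z W

section bc

variable {k k' K K' : Type} [Field k] [Field k'] [Field K] [Field K'] [Algebra k k'] [Algebra k K]
  [Algebra k K'] [Algebra k' K'] [Algebra K K'] [IsScalarTower k K K'] [IsScalarTower k k' K']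
  [IsAlgClosed k] [IsAlgClosed k'] [CharZero k]

open PlH GauH in
/-- the Gauss extension of a place -/
theorem gauss (hB : BC k k' K K') (P : Place K) (hk : ∀ a, algebraMap k K a ∈ P.ring) :
    ∃ P' : Place K', (∀ a, algebraMap k' K' a ∈ P'.ring) ∧
      (∀ f, P'.ord (algebraMap K K' f) = (1 : ℕ) * P.ord f) ∧
      ∀ (d : ℕ) (w : Fin d → K), (∀ j, w j ∈ P.ring) →
        (∀ F : MvPolynomial (Fin d) k, F ≠ 0 → P.val (aeval w F) = 1) →
        ∀ F : MvPolynomial (Fin d) k', F ≠ 0 → P'.val (aeval (up K' w) F) = 1 := by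
  obtain ⟨κ, _, _, O, r, hO, hr⟩ := ex_rf P hk
  obtain ⟨κ', _, _, _, _, _, _, hκ⟩ := exu k k' κ
  obtain ⟨A, h, m1, m2, h1, h2⟩ : ∃ (A : Subalgebra k K') (h : A →ₐ[k] κ')
      (m1 : ∀ f ∈ O, algebraMap K K' f ∈ A) (m2 : ∀ c, algebraMap k' K' c ∈ A),
      (∀ f hf, h ⟨_, m1 f hf⟩ = algebraMap κ κ' (r ⟨f, hf⟩)) ∧
        ∀ c, h ⟨_, m2 c⟩ = algebraMap k' κ' c := by
    obtain ⟨h, h1, h2⟩ := hB.lift O ⊤ κ' ((IsScalarTower.toAlgHom k κ κ').comp r)
      ((IsScalarTower.toAlgHom k k' κ').comp (Subalgebra.val _))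
    exact ⟨_, h, fun f hf => Algebra.subset_adjoin (.inl ⟨f, hf, rfl⟩),
      fun c => Algebra.subset_adjoin (.inr ⟨c, trivial, rfl⟩), fun f hf => h1 ⟨f, hf⟩ _,
      fun c => h2 ⟨c, trivial⟩ _⟩
  obtain ⟨P', e3, e4⟩ := plc (P := P) (lr h) (fun f => ⟨fun ⟨s, a, s0, e⟩ => by
    by_contra c
    have f0 : f ≠ 0 := fun e => c (e ▸ zero_mem _)
    have i := (hO _).2 ((P.ring.mem_or_inv_mem f).resolve_left c)
    refine s0 ?_
    rw [show s = a * ⟨_, m1 _ i⟩ from Subtype.ext (by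
      simp [← e, (map_ne_zero (algebraMap K K')).2 f0]), map_mul, h1 _ i,
      not_not.1 (mt (hr ⟨_, i⟩).1 fun e => c (by simpa using ((val_one P).1 e).2.2)), map_zero,
      mul_zero], fun e => s1 h ⟨_, m1 f ((hO f).2 e)⟩⟩) fun f f0 => by
    obtain ⟨b, b1, b0, b2⟩ := hB.gen f
    obtain ⟨c, c0, a, ha, e⟩ := nm hκ hO r h m1 m2 h1 h2 b1 b0
    obtain ⟨c', c0', a', ha', e'⟩ := nm hκ hO r h m1 m2 h1 h2 b2 (mul_ne_zero b0 f0)
    have : f / algebraMap K K' (c' / c) = a' * (a : K')⁻¹ := by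
      have := a0 a ha
      have := (map_ne_zero (algebraMap K K')).2 c0'
      rw [e] at e'
      rw [map_div₀]
      field_simp
      linear_combination e'
    refine ⟨c' / c, div_ne_zero c0' c0, this ▸ mul_mem (s1 h a') (s2 a ha), ?_⟩
    rw [this, mul_inv, inv_inv]
    exact mul_mem (s2 a' ha') (s1 h a)
  refine ⟨P', fun c => (e3 _).2 (s1 h ⟨_, m2 c⟩), fun f => by rw [e4, Nat.cast_one, one_mul],
    fun d w hw hF F F0 => ?_⟩
  let u : Fin d → O := fun j => ⟨w j, (hO _).2 (hw j)⟩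
  have hi := hκ.ai (y := fun j => r (u j)) (algebraicIndependent_iff.2 fun G e => by
    by_contra G0
    rw [← comp_aeval_apply] at e
    exact (hr _).2 ((congrArg P.val (comp_aeval_apply u O.val G)).trans (hF G G0)) e)
  let a : A := eval₂Hom ((algebraMap k' K').codRestrict A m2)
    (fun j => ⟨_, m1 _ ((hO _).2 (hw j))⟩) F
  have ha : h a ≠ 0 := fun e => F0 (algebraicIndependent_iff.1 hi F (by
    rw [← e]
    refine ((map_eval₂Hom _ _ h.toRingHom F).trans ?_).symm
    exact eval₂Hom_congr (RingHom.ext h2) (funext fun j => h1 _ _) rfl))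
  rw [show aeval (up K' w) F = a from (map_eval₂Hom ((algebraMap k' K').codRestrict A m2)
    (fun j => ⟨_, m1 _ ((hO _).2 (hw j))⟩) A.val.toRingHom F).symm, val_one, e3, e3]
  exact ⟨a0 a ha, s1 h a, s2 a ha⟩

variable {ι : Type} {x : ι → K} {n : ℕ} {i : ι}

omit [IsAlgClosed k] [IsAlgClosed k'] [CharZero k] [Algebra k k'] [IsScalarTower k k' K']
  [Algebra k K'] [IsScalarTower k K K'] [Algebra k' K'] [Algebra k K] in
theorem up_div (w : Fin n → ι) :
    (fun a => up K' x (w a) / up K' x i) = up K' fun a => x (w a) / x i :=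
  funext fun _ => (map_div₀ (algebraMap K K') _ _).symm

theorem gauss_nx (hB : BC k k' K K') {P : Place K} (h : Nx k n x P i) :
    ∃ P' : Place K', Nx k' n (up K' x) P' i ∧
      ∀ f, P'.ord (algebraMap K K' f) = (1 : ℕ) * P.ord f := by
  obtain ⟨P', h1, h2, h3⟩ := gauss hB P h.cst
  obtain ⟨d, w, hd, hw⟩ := h.ind
  refine ⟨P', ⟨h1, fun j => ?_, d, w, hd, ?_⟩, h2⟩
  · rw [up, up, ← map_div₀]
    exact KlbH.up_mem h2 (h.mem j)
  · rw [up_div]
    exact h3 d _ (fun j => h.mem _) hw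

omit [IsAlgClosed k] [IsAlgClosed k'] [CharZero k] in
theorem res_cst {P : Place K} {P' : Place K'} (h : ∀ f, algebraMap K K' f ∈ P'.ring ↔ f ∈ P.ring)
    (h' : ∀ a, algebraMap k' K' a ∈ P'.ring) (a : k) : algebraMap k K a ∈ P.ring := by
  rw [← h, ← IsScalarTower.algebraMap_apply, IsScalarTower.algebraMap_apply k k' K']
  exact h' _

omit [IsAlgClosed k] [IsAlgClosed k'] [CharZero k] in
theorem res_nx {P : Place K} {P' : Place K'} (h : ∀ f, algebraMap K K' f ∈ P'.ring ↔ f ∈ P.ring)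
    (h' : Nx k' n (up K' x) P' i) : Nx k n x P i := by
  obtain ⟨d, w, hd, hw⟩ := h'.ind
  refine ⟨res_cst h h'.cst, fun j => (h _).1 (by rw [map_div₀]; exact h'.mem j), d, w, hd,
    fun F F0 => ?_⟩
  have e := hw (map (algebraMap k k') F) fun c => F0 (map_injective _ (algebraMap k k').injective
    (c.trans (map_zero _).symm))
  rw [up_div, aeval_map_algebraMap, show aeval (up K' fun a => x (w a) / x i) F =
    algebraMap K K' (aeval (fun a => x (w a) / x i) F) from
      (comp_aeval_apply _ (IsScalarTower.toAlgHom k K K') F).symm, PlH.val_one, ← map_inv₀, h, h,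
    map_ne_zero] at e
  exact (PlH.val_one P).2 e

omit [IsAlgClosed k] [IsAlgClosed k'] [CharZero k] [Algebra k k'] [IsScalarTower k k' K']
  [Algebra k K'] [IsScalarTower k K K'] [Algebra k' K'] [Algebra k K] in
theorem triv_ord {P' : Place K'} (c : ∀ f, algebraMap K K' f ∈ P'.ring) (f : K) :
    P'.ord (algebraMap K K' f) = 0 := by
  by_cases h : f = 0
  · rw [h, map_zero, P'.ord_zero]
  · exact (P'.ord_eq_zero_iff ((map_ne_zero _).2 h)).2 ⟨c _, map_inv₀ (algebraMap K K') f ▸ c _⟩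

omit [IsAlgClosed k] [IsAlgClosed k'] [CharZero k] [Algebra k k'] [IsScalarTower k k' K']
  [Algebra k K'] [IsScalarTower k K K'] [Algebra k' K'] [Algebra k K] in
theorem triv_cf [Fintype ι] {P' : Place K'} (c : ∀ f, algebraMap K K' f ∈ P'.ring) (C : Cd K) :
    cf (up K' x) P' (C.up K') = 0 := by
  have o : ∀ {σ : Type} [Fintype σ] (z : σ → K), mx P' (up K' z) = 0 := fun {_ _} z => by
    by_cases hz : up K' z = 0
    · rw [hz, HgH.mx_zero]
    · obtain ⟨l, -, e, -⟩ := HgH.top P' hz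
      rw [e, up, triv_ord c, neg_zero]
  rw [cf, o x, show mx P' (C.up K').s = 0 from o C.s, mul_zero, sub_zero]

open HybH KlbH in
theorem hyb2 (h : BC k k' K K') {ι' : Type} [Fintype ι] [Nonempty ι] [Fintype ι'] [Nonempty ι']
    {x' : ι' → K} {y : Fin n → K} {δ : Fin n → Derivation k K K}
    {δ' : Fin n → Derivation k' K' K'} {q : ℕ} {C G M D Z : Cd K} (hf : Fr y δ)
    (hf' : Fr (up K' y) δ') :
    Hyp2 (up K' x) (up K' x') (up K' y) δ' q (C.up K') (G.up K') (M.up K') (D.up K') (Z.up K') ↔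
      Hyp2 x x' y δ q C G M D Z := by
  have hj : ∀ i (e : Fin n → ι), (jac δ' fun a => up K' x (e a) / up K' x i) =
      algebraMap K K' (jac δ fun a => x (e a) / x i) := fun i e => by
    unfold jac
    rw [RingHom.map_det]
    congr 1
    ext a b
    simp only [RingHom.mapMatrix_apply, Matrix.map_apply, Matrix.of_apply, up, ← map_div₀]
    exact fr_res der hf hf' _ _
  have fr := fun {ι σ : Type} [Fintype σ] (x : ι → K) (s : σ → K) => ldn.free k k' K K' h ι σ x s
  constructor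
  · intro H
    have md := ldn.md k k' K K' h ι x H.md
    have ne : ∀ i, x' i ≠ 0 := fun i e => H.ne i (by rw [up, e, map_zero])
    have x0 := free_ne (free_self (k := k) md.ne)
    have x1 := free_ne (free_self (k := k) ne)
    have fC := (fr x' C.s).1 H.fC
    have fG := (fr x' G.s).1 H.fG
    have fM := (fr x' M.s).1 H.fM
    have fD := (fr x D.s).1 H.fD
    have fZ := (fr x Z.s).1 H.fZ
    refine ⟨md, ne, (fr x' x).1 H.fx, hf, H.q0, fC, fG, fM, fD, fZ, fun P hP => ?_,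
      fun P i hP e => ?_, fun P i hP => ?_,
      (klb k k' K K' h ι' x' n y δ q C ne hf H.q0 (free_ne fC)).1 H.klt,
      psf_dn P270L.cbc usp h ne fG H.psf, fun p => ?_, fun p => ?_⟩
    · obtain ⟨P', h1, h2, -⟩ := gauss h P hP
      simpa [cf_up h2 x0, cf_up h2 x1, free_ne fC, free_ne fM, free_ne fD, free_ne fZ] using
        H.rel P' h1
    · obtain ⟨P', h1, h2⟩ := gauss_nx h hP
      simpa [hj, h2, cf_up h2 x1, free_ne fC] using H.bdy P' i h1 e
    · obtain ⟨P', h1, h2⟩ := gauss_nx h hP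
      simpa [cf_up h2 x1, free_ne fC, free_ne fG] using H.low P' i h1
    · obtain ⟨p', -, -, hp⟩ := HybH.cbc P270L.cbc h ne p
      rw [← hp M fM]
      exact H.nM p'
    · obtain ⟨p', -, -, hp⟩ := HybH.cbc P270L.cbc h md.ne p
      rw [← hp D fD, ← hp Z fZ]
      exact H.nD p'
  · intro H
    have x0 := free_ne (free_self (k := k) H.md.ne)
    have x1 := free_ne (free_self (k := k) H.ne)
    refine ⟨mdu k k' K K' h n y (fr_ind hf) hf.fin ι x H.md,
      fun i => (map_ne_zero _).2 (H.ne i), (fr x' x).2 H.fx, hf', H.q0, (fr _ _).2 H.fC,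
      (fr _ _).2 H.fG, (fr _ _).2 H.fM, (fr _ _).2 H.fD, (fr _ _).2 H.fZ, fun P' hP => ?_,
      fun P' i hP e => ?_, fun P' i hP => ?_,
      (klb k k' K K' h ι' x' n y δ q C H.ne hf H.q0 (free_ne H.fC)).2 H.klt,
      psf_up ldn P270L.spec h H.ne H.fG H.psf, fun p' => ?_, fun p' => ?_⟩
    · by_cases c : ∀ f, algebraMap K K' f ∈ P'.ring
      · simp only [triv_cf c]
      obtain ⟨P, e, -, h1, h2⟩ := PlH.ex_res P' c
      rw [cf_up h2 x1 (free_ne H.fC), cf_up h2 x1 (free_ne H.fM), cf_up h2 x0 (free_ne H.fD),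
        cf_up h2 x0 (free_ne H.fZ), ← mul_add, ← mul_add, H.rel P (res_cst h1 hP)]
    · rw [hj, map_eq_zero]
      by_cases c : ∀ f, algebraMap K K' f ∈ P'.ring
      · simp [triv_cf c, triv_ord c]
      obtain ⟨P, m, -, h1, h2⟩ := PlH.ex_res P' c
      refine (H.bdy P i (res_nx h1 hP) e).imp_left fun h3 => ?_
      rw [h2, cf_up h2 x1 (free_ne H.fC), mul_left_comm, ← mul_add]
      positivity
    · by_cases c : ∀ f, algebraMap K K' f ∈ P'.ring
      · simp only [triv_cf c, le_refl]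
      obtain ⟨P, m, -, h1, h2⟩ := PlH.ex_res P' c
      rw [cf_up h2 x1 (free_ne H.fC), cf_up h2 x1 (free_ne H.fG)]
      exact mul_le_mul_of_nonneg_left (H.low P i (res_nx h1 hP)) (Int.natCast_nonneg m)
    · obtain ⟨J, _, p, hp⟩ := HybH.spec P270L.spec h H.ne p'
      rw [hp M H.fM]
      exact Finset.sum_nonneg fun j _ => H.nM _
    · obtain ⟨J, _, p, hp⟩ := HybH.spec P270L.spec h H.md.ne p'
      rw [hp D H.fD, hp Z H.fZ, ← Finset.sum_add_distrib]
      exact Finset.sum_nonneg fun j _ => H.nD _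

theorem cmp_up {σ σ' : Type} [Fintype σ] [Fintype σ'] {u : σ → K} {v : σ' → K} {d : ℕ}
    (h : Cmp k x u v d) : Cmp k' (up K' x) (up K' u) (up K' v) d := fun i => by
  obtain ⟨h1, a, h2, h3⟩ := h i
  have e : ∀ l m, up K' u l * up K' v m / up K' x i ^ d = algebraMap K K' (u l * v m / x i ^ d) :=
    fun l m => by simp only [up, map_div₀, map_mul, map_pow]
  refine ⟨fun l m => e l m ▸ CbcH.up_mem (h1 l m), fun l m => algebraMap K K' (a l m),
    fun l m => CbcH.up_mem (h2 l m), ?_⟩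
  simp only [e, ← map_mul, ← map_sum, h3, map_one]

open UspH in
theorem cmp_dn (h : BC k k' K K') [Fintype ι] {σ σ' : Type} [Fintype σ] [Fintype σ'] {u : σ → K'}
    {v : σ' → K} {d : ℕ} (hc : Cmp k' (up K' x) u (up K' v) d) : ∃ u' : σ → K, Cmp k x u' v d := by
  classical
  choose hc1 a ha ha1 using hc
  obtain ⟨w, O, R, r, hO, hA⟩ := ex_rd redk h x (T := range u ∪
      range (fun q : ι × σ × σ' => a q.1 q.2.1 q.2.2) ∪
      range (fun q : ι × σ × σ' => u q.2.1 * up K' v q.2.2 / up K' x q.1 ^ d)) (toFinite _)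
  simp only [union_subset_iff, range_subset_iff, Prod.forall,
    SetLike.mem_coe, mem_union, or_imp, forall_and, forall_mem_range] at hO hA
  obtain ⟨⟨o1, -⟩, -⟩ := hO
  obtain ⟨⟨-, a4⟩, a5⟩ := hA
  have e1 : ∀ i l m, R (u l * up K' v m / up K' x i ^ d) = R (u l) * v m / x i ^ d :=
    fun i l m => by
      rw [up, up, mul_div_assoc, ← map_pow, ← map_div₀, r.mul (o1 l) (r.up _).1, (r.up _).2,
        mul_div_assoc]
  refine ⟨fun l => R (u l), fun i => ?_⟩
  have b4 := fun l m => a4 i i l m (ha i l m)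
  have b5 := fun l m => a5 i i l m (hc1 i l m)
  refine ⟨fun l m => e1 i l m ▸ r.mem (b5 l m), fun l m => R (a i l m), fun l m => r.mem (b4 l m),
    ?_⟩
  rw [← r.one, ← ha1 i, r.sum fun l => sum_mem fun m _ => r.le i (mul_mem (b4 l m) (b5 l m))]
  refine Finset.sum_congr rfl fun l _ => ?_
  rw [r.sum fun m => r.le i (mul_mem (b4 l m) (b5 l m))]
  exact Finset.sum_congr rfl fun m _ => by rw [r.mul (r.le i (b4 l m)) (r.le i (b5 l m)), e1]

theorem out_iff (h : BC k k' K K') [Fintype ι] {D Z W : Cd K} (hx : ∀ i, x i ≠ 0)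
    (fD : Free k x D.s) (fZ : Free k x Z.s) (fW : Free k x W.s) :
    Out k' (up K' x) (D.up K') (Z.up K') (W.up K') ↔ Out k x D Z W := by
  have e : ∀ j, pw (W.up K').s j = up K' (pw W.s j) := fun j =>
    funext fun l => (map_pow (algebraMap K K') _ _).symm
  refine and_congr (cob_of ldn P270L.spec P270L.cbc usp k k' K K' h ι x D Z hx fD fZ)
    ⟨fun H hp => ?_, fun H hp => ?_⟩
  · obtain ⟨j, σ, _, u, j0, hu⟩ := H fun p' => by
      obtain ⟨J, _, p, e⟩ := HybH.spec P270L.spec h hx p'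
      rw [e W fW]
      exact Finset.sum_nonpos fun j _ => hp _
    obtain ⟨u', hu'⟩ := cmp_dn h (e j ▸ hu)
    exact ⟨j, σ, inferInstance, u', j0, hu'⟩
  · obtain ⟨j, σ, _, u, j0, hu⟩ := H fun p => by
      obtain ⟨p', -, -, e⟩ := HybH.cbc P270L.cbc h hx p
      rw [← e W fW]
      exact hp p'
    exact ⟨j, σ, inferInstance, up K' u, j0, e j ▸ cmp_up hu⟩

end bc

/-- the Lefschetz principle -/
theorem trans2 (n : ℕ) (H : FF2 ℂ n) (k' : Type) [Field k'] [IsAlgClosed k'] [CharZero k'] :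
    FF2 k' n := by
  intro K' _ _ ι ι' _ _ _ _ x z y' δ' q C G M D Z W h' fW
  let S : Fin 8 → Set K' :=
    ![range x, range z, range C.s, range G.s, range M.s, range D.s, range Z.s, range W.s]
  obtain ⟨k, K, _, _, _, _, _, _, _, _, _, _, bc, hS, y, rfl, hy⟩ := exd k' K' n y' h'.fr.fin
    (⋃ j, S j) (finite_iUnion fun j => by fin_cases j <;> exact finite_range _)
  have : CharZero k := RingHom.charZero (algebraMap k k')
  have dn : ∀ (j : Fin 8) {σ : Type} (s : σ → K'), S j = range s → ∃ t : σ → K, s = up K' t :=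
    fun j _ s e => by
      choose t ht using fun l => hS (mem_iUnion.2 ⟨j, e ▸ mem_range_self l⟩ : s l ∈ _)
      exact ⟨t, (funext ht).symm⟩
  have dc : ∀ (j : Fin 8) (E : Cd K'), S j = range E.s → ∃ F : Cd K, E = F.up K' := fun j E e => by
    obtain ⟨σ, s, c⟩ := E
    obtain ⟨t, rfl⟩ := dn j (σ := σ) s e
    exact ⟨⟨σ, t, c⟩, rfl⟩
  obtain ⟨x, e0⟩ := dn 0 x rfl
  obtain ⟨z, e1⟩ := dn 1 z rfl
  obtain ⟨C, e2⟩ := dc 2 C rfl
  obtain ⟨G, e3⟩ := dc 3 G rfl
  obtain ⟨M, e4⟩ := dc 4 M rfl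
  obtain ⟨D, e5⟩ := dc 5 D rfl
  obtain ⟨Z, e6⟩ := dc 6 Z rfl
  obtain ⟨W, e7⟩ := dc 7 W rfl
  clear dn dc hS
  clear_value S
  subst e0 e1 e2 e3 e4 e5 e6 e7
  have hi : AlgebraicIndependent k y :=
    AlgebraicIndependent.of_comp (IsScalarTower.toAlgHom k K K')
      ((fr_ind h'.fr).restrictScalars (algebraMap k k').injective)
  obtain ⟨δ, hδ⟩ := der.ex k K n y hi hy
  have h := (hyb2 bc hδ h'.fr).1 h'
  replace fW := (ldn.free k k' K K' bc ι _ x W.s).1 fW
  refine (out_iff bc h.md.ne h.fD h.fZ fW).2 ?_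
  obtain ⟨φ⟩ := emb k
  let _ := φ.toAlgebra
  obtain ⟨L, _, _, _, _, _, _, bc'⟩ := exu k ℂ K
  obtain ⟨ε, hε, -⟩ := fru k ℂ K L bc' n y δ hδ
  exact (out_iff bc' h.md.ne h.fD h.fZ fW).1 (H L ι ι' _ _ _ ε q _ _ _ _ _ _
    ((hyb2 bc' hδ hε).2 h) ((ldn.free k ℂ K L bc' ι _ x W.s).2 fW))

end Vale.Agent.N270
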