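import Vale.Agent.P270W81.Dec
import Vale.Agent.P270L.T.All

/-!
# N270: birational morphisms of normal projective varieties, and places
-/

open CategoryTheory AlgebraicGeometry TopologicalSpace Order
open Vale.Agent.P299.G Vale.Agent.P289 Vale.Agent.P289.Var Vale.Agent.P289.H219
open Vale.Agent.P297 (Place)
open Vale.Agent.P270L Vale.Agent.P270L.S
open Vale.Agent.P270W81 (IsDivisorOn IsKlt)
open Vale.Agent.P289W (Model)

namespace Vale.Agent.N270

set_option linter.unusedSectionVars false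

variable {k : Type} [Field k] {V X Y : Var k}

/-- a place with a centre of dimension `dim V - 1` is a prime divisor -/
theorem codim {d : ℕ} (hd : V.dim = (d + 1 : ℕ)) (P : Place V.K) {p : V.X} (hp : Dom P.ring p)
    {y : Fin d → V.K} (hy : ∀ j, y j ∈ loc p)
    (hF : ∀ F : MvPolynomial (Fin d) k, F ≠ 0 → P.val (MvPolynomial.aeval y F) = 1) :
    ∃ h : coheight p = 1, ∀ g, g ≠ 0 → ordAlong g (⟨p, h⟩ : V.PrimeDiv) = P.ord g := by
  choose y' hy' using hy
  have hco : coheight p = 1 := by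
    let _ : Algebra k (V.X.presheaf.stalk p) :=
      ((V.X.presheaf.germ ⊤ p trivial).hom.comp (cst V.str ⊤)).toAlgebra
    let ι : V.X.presheaf.stalk p →ₐ[k] V.K :=
      { toK p with commutes' := fun c => toK_germ_cst V ⊤ p trivial c }
    have h3 := P270W81.dim_le ι (toK_injective p) hd y' fun F F0 => by
      have e := hF F F0
      rw [← show (fun j => ι (y' j)) = y from funext hy', ← MvPolynomial.comp_aeval_apply,
        PlH.val_one] at e
      exact un_toK.1 (hp.un (toK_mem p _) e.1 e.2.2)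
    rw [Ring.krullDimLE_iff, ringKrullDim_stalk_eq_coheight] at h3
    refine le_antisymm (by exact_mod_cast h3) (Order.one_le_iff_ne_zero.2 fun h0 => ?_)
    have h4 : p ⤳ genericPoint V.X := coheight_eq_zero.1 h0 (genericPoint_specializes p)
    obtain ⟨π, p0, p1⟩ := P.exists_ord_eq_one
    have h8 := P.ord_nonneg_of_mem (hp.mem (loc_mono h4 (mem_loc_gen π⁻¹)))
    rw [P.ord_inv] at h8
    omega
  refine ⟨hco, fun t ht => P289W.ord_eq_of_dom hco P.ord (fun a b ha hb => P.ord_mul ha hb)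
    P.exists_ord_eq_one (fun a ha => ⟨P.ord_nonneg_of_mem (hp a).1, fun hu => ?_⟩) ht⟩
  exact P.ord_pos_of_inv_notMem fun h => hu (un_toK.1 (hp.un (toK_mem p a) ha h))

theorem gen_of_loc {σ : Type} [Fintype σ] {u : σ → V.K}
    (hu : ∀ p : V.X, ∃ l, u l ≠ 0 ∧ ∀ l', u l' / u l ∈ loc p) : ∃ F, Gen F u := by
  choose l h0 hl using hu
  have key : ∀ (p : V.X) (y : V.PrimeDiv), y.Through p → ∀ l', u l' ≠ 0 →
      ordAlong (u (l p)) y ≤ ordAlong (u l') y := by
    intro p y hy l' h1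
    have h2 := ord_loc (hl p l') hy
    rw [ordAlong_div h1 (h0 p)] at h2
    omega
  have hfin : (Function.support fun y : V.PrimeDiv => - ordAlong (u (l y.1)) y).Finite := by
    refine (Set.finite_iUnion fun j : {j // u j ≠ 0} => finite_ordAlong j.2).subset fun y hy => ?_
    exact Set.mem_iUnion.2 ⟨⟨l y.1, h0 _⟩, neg_ne_zero.1 hy⟩
  refine ⟨Finsupp.ofSupportFinite _ hfin, fun j p h1 y _ => ?_, fun p => ⟨l p, h0 p, fun y hy => ?_⟩⟩
  · have h2 := key y.1 y specializes_rfl j h1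
    change 0 ≤ _ + - ordAlong (u (l y.1)) y
    omega
  · have h2 := key y.1 y specializes_rfl (l p) (h0 p)
    have h3 := key p y hy (l y.1) (h0 _)
    change _ + - ordAlong (u (l y.1)) y = 0
    omega

theorem mult_nsmul {D : V.QDiv} {m : ℕ} {E : V.Div} (hE : IsCartierMultiple D m E) {a : ℕ}
    (ha : 0 < a) : IsCartierMultiple D (a * m) (a • E) :=
  ⟨Nat.mul_pos ha hE.1, fun y => by
    rw [Finsupp.smul_apply, nsmul_eq_mul]
    push_cast
    rw [hE.2.1, mul_assoc], cartier_nsmul hE.2.2 a⟩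

theorem cartier_sub {E F : V.Div} (hE : IsCartier E) (hF : IsCartier F) : IsCartier (E - F) :=
  fun p => by
    obtain ⟨f, hf⟩ := hE p
    obtain ⟨g, hg⟩ := hF p
    exact ⟨_, gen_div (F := F) (by rwa [sub_add_cancel]) hg⟩

theorem cartier_div {E : V.Div} (hE : IsCartier E) {g : V.K} (hg : g ≠ 0) :
    IsCartier (E - divOf g hg) := fun p => by
  obtain ⟨f, hf⟩ := hE p
  exact ⟨_, gen_divOf hf hg⟩

/-- a birational morphism -/
structure Bir (Y X : Var k) where
  f : Y.X ⟶ X.X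
  comm : f ≫ X.str = Y.str
  φ : X.K ≃+* Y.K
  eq : ∀ (p : Y.X) (a : X.X.presheaf.stalk (f p)), φ (toK _ a) = toK p (f.stalkMap p a)

namespace Bir

variable (b : Bir Y X)

theorem const (c : k) : b.φ (algebraMap k X.K c) = algebraMap k Y.K c := by
  let p := genericPoint Y.X
  rw [← toK_germ_cst X ⊤ (b.f p) trivial c, b.eq]
  have h2 := Scheme.Hom.germ_stalkMap b.f ⊤ p trivial
  have h3 := congrArg (fun g => g.hom (cst X.str ⊤ c)) h2
  refine (congrArg (toK p) h3).trans ?_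
  change toK p (Y.X.presheaf.germ _ p _ ((b.f.app ⊤).hom (cst X.str ⊤ c))) = _
  rw [app_cst, b.comm]
  exact toK_germ_cst Y _ p _ c

theorem loc {p : Y.X} {g : X.K} (h : g ∈ loc (b.f p)) : b.φ g ∈ loc p := by
  obtain ⟨a, rfl⟩ := h
  exact ⟨_, (b.eq p a).symm⟩

theorem dom {P : Place X.K} {P' : Place Y.K} (h : ∀ g, b.φ g ∈ P'.ring ↔ g ∈ P.ring) {p : Y.X}
    (hp : Dom P'.ring p) : Dom P.ring (b.f p) := fun a => by
  refine ⟨(h _).1 (hp.mem (b.loc (toK_mem _ a))), fun hu => ?_⟩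
  have := (hp (b.f.stalkMap p a)).2 fun e => hu ((isUnit_map_iff (b.f.stalkMap p).hom a).1 e)
  rw [← b.eq, ValuationSubring.mem_nonunits_iff_or, map_eq_zero, ← map_inv₀, h] at this
  exact (ValuationSubring.mem_nonunits_iff_or _).2 this

/-- `P = f^* D` -/
def Pull (D : X.QDiv) (P : Y.QDiv) : Prop :=
  ∃ (m : ℕ) (G : X.Div), IsCartierMultiple D m G ∧
    ∀ (E : Y.PrimeDiv) g, GeneratesAt G g (b.f E.1) → m * P E = ordAlong (b.φ g⁻¹) E

theorem pull_mult {D : X.QDiv} {P : Y.QDiv} (h : b.Pull D P) :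
    ∃ (m : ℕ) (G : X.Div) (F : Y.Div), IsCartierMultiple D m G ∧ IsCartierMultiple P m F ∧
      ∀ p g, GeneratesAt G g (b.f p) → GeneratesAt F (b.φ g) p := by
  obtain ⟨m, G, hG, h⟩ := h
  let F : Y.Div := ((m : ℚ) • P).mapRange Rat.num rfl
  have h1 : ∀ (E : Y.PrimeDiv) g, GeneratesAt G g (b.f E.1) → F E = ordAlong (b.φ g⁻¹) E :=
    fun E g hg => by
      change ((m : ℚ) * P E).num = _
      rw [h E g hg, Rat.num_intCast]
  have h2 : ∀ p g, GeneratesAt G g (b.f p) → GeneratesAt F (b.φ g) p := fun p g hg => by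
    have h0 := (map_ne_zero b.φ).2 hg.1
    refine ⟨h0, fun E hE => ?_⟩
    rw [h1 E g (generatesAt_of_specializes (Specializes.map hE b.f.continuous) hg), map_inv₀,
      ordAlong_inv h0, add_neg_cancel]
  refine ⟨m, G, F, hG, ⟨hG.1, fun E => ?_, fun p => ?_⟩, h2⟩
  · obtain ⟨g, hg⟩ := hG.2.2 (b.f E.1)
    rw [h1 E g hg, h E g hg]
  · obtain ⟨g, hg⟩ := hG.2.2 (b.f p)
    exact ⟨_, h2 p g hg⟩

/-- the identity -/
noncomputable def refl (X : Var k) : Bir X X where
  f := 𝟙 _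
  comm := Category.id_comp _
  φ := RingEquiv.refl _
  eq p a := by
    rw [Scheme.Hom.stalkMap_id]
    rfl

theorem pull_refl {D : X.QDiv} (h : IsQCartier D) : (refl X).Pull D D := by
  obtain ⟨m, G, hG⟩ := h
  refine ⟨m, G, hG, fun E g hg => ?_⟩
  have h1 := hg.2 E specializes_rfl
  rw [← hG.2.1]
  change _ = ((ordAlong g⁻¹ E : ℤ) : ℚ)
  rw [ordAlong_inv hg.1]
  congr 1
  omega

end Bir

section klt

open P270W81 P289W.Model

variable [CharZero k] [IsAlgClosed k] {n : ℕ} {ω : V.Form n} {κ : V.Div} {B : V.QDiv}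

theorem exists_dec (hd : V.dim = n) (h0 : ω.Nonzero) (hκ : IsDivisorOf κ ω) {L : V.QDiv} {m : ℕ}
    {D : V.Div} (hD : IsCartierMultiple L m D) (M : Model V) :
    ∃ κ' P : M.QDiv, IsDivisorOn κ' ω ∧
      ∀ E g, GeneratesAt D g (E.1.map M.f) → m * P E = ord g⁻¹ E := by
  have hm : (m : ℚ) ≠ 0 := Nat.cast_ne_zero.2 hD.1.ne'
  choose r hr using exists_order (M := M) hd h0
  choose g hg using fun E : M.PrimeDiv => hD.2.2 (M.f E.1)
  have e1 : ∀ E (y : V.PrimeDiv), M.f E.1 = y.1 → r E = κ y := fun E y e => by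
    refine (hr E).unique ?_
    refine (congrArg (IsLeast · _) (Set.ext fun m => exists_congr fun v => ?_)).mp (hκ y)
    exact and_congr (forall_congr' fun i => forall_congr' fun g =>
      imp_congr (reg_eq e _).symm (reg_eq e _).symm)
      (and_congr_right fun hv => by rw [ord_eq e hv])
  have e2 : ∀ E (y : V.PrimeDiv), M.f E.1 = y.1 → (ord (g E)⁻¹ E : ℚ) / m = L y := fun E y e => by
    have h1 := (hg E).2 y (e ▸ specializes_rfl)
    rw [div_eq_iff hm, mul_comm, ← hD.2.1 y, ord_inv (hg E).1, ord_eq e (hg E).1]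
    congr 1
    omega
  obtain ⟨κ', hκ'⟩ := exists_qdiv (fun E => (r E : ℚ)) (toQ κ)
    fun E y e => by rw [e1 E y e, toQ, Finsupp.mapRange_apply]
  obtain ⟨P, hP⟩ := exists_qdiv _ _ e2
  refine ⟨κ', P, fun E => ⟨r E, hκ' E, hr E⟩, fun E f hf => ?_⟩
  rw [hP, mul_div_cancel₀ _ hm, ord_inv hf.1, ord_inv (hg E).1, ord_gen hf (hg E)]

theorem positive (hd : V.dim = n) (h0 : ω.Nonzero) (hκ : IsDivisorOf κ ω) (hl : IsKlt ω κ B)
    (F : DivisorOver V) (a : ℚ) (ha : F.IsLogDiscrepancy ω (toQ κ + B) a) : 0 < a := by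
  obtain ⟨r, c, h1, ⟨m, D, x, f, h2, h3, h4, rfl⟩, rfl⟩ := ha
  obtain ⟨-, d, y, rfl, y1, y2⟩ := dvl_of hd F
  obtain ⟨M, E, rfl, e⟩ := exists_model hd F.place y1 y2 h3
  obtain ⟨κ', P, a1, a3⟩ := exists_dec hd h0 hκ h2 M
  have h5 := hl M E _ ⟨κ', P, a1, ⟨m, D, h2, a3⟩, rfl⟩
  have hr : ∀ g, Reg E g ↔ g ∈ F.place.ring := fun g => (reg_ord E g).trans
    ⟨fun a => by
      by_cases hg : g = 0
      · exact hg ▸ zero_mem _
      exact (F.place.ord_nonneg_iff hg).1 (e g hg ▸ a hg),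
    fun a hg => e g hg ▸ F.place.ord_nonneg_of_mem a⟩
  obtain ⟨r', b1, b2⟩ := a1 E
  obtain rfl : r' = r := by
    refine b2.unique ((congrArg (IsLeast · _) (Set.ext fun m => exists_congr fun v => ?_)).mp h1)
    exact and_congr (forall_congr' fun i => forall_congr' fun g =>
      imp_congr (hr _).symm (hr _).symm) (and_congr_right fun hv => by rw [e _ hv])
  have hm : (m : ℚ) ≠ 0 := Nat.cast_ne_zero.2 h2.1.ne'
  have b3 : (F.place.ord f⁻¹ : ℚ) / m = P E := by
    rw [div_eq_iff hm, mul_comm, a3 E f h4, e _ (inv_ne_zero h4.1)]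
  rw [Finsupp.sub_apply] at h5
  rw [b3, ← b1]
  linarith

end klt

end Vale.Agent.N270
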