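import Vale.Agent.N270.Ana
import Vale.Agent.N270.Geo

/-!
# N270: from function fields to varieties
-/

open CategoryTheory AlgebraicGeometry TopologicalSpace Order
open Vale.Agent.P299.G Vale.Agent.P289 Vale.Agent.P289.Var Vale.Agent.P289.H219
open Vale.Agent.P297 (Place)
open Vale.Agent.P285N.Brep (jac Fr)
open Vale.Agent.P270L Vale.Agent.P270L.S
open Vale.Agent.P270W81 (IsKlt)

namespace Vale.Agent.N270

set_option linter.unusedSectionVars false

variable {k : Type} [Field k] [CharZero k] [IsAlgClosed k] {V X Y : Var k}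

theorem inter_zero (C : Curve V) : inter (0 : V.QDiv) C = 0 := by
  have h2 := inter_smul (C := C) ⟨_, _, mult_zero⟩ 0 1 one_pos
  rw [smul_zero] at h2
  rw [h2]
  simp

section one

variable {ι : Type} [Fintype ι] [Nonempty ι] {x : ι → V.K} {U : ι → V.X.Opens} (h : Atl k x U)
  {H : V.Div} (hH : Gen H x)
include h hH

omit hH in
theorem nef_of {D : V.QDiv} (hD : IsNef D) {R : Cd V.K} {q : ℕ} (hR : Num U x R q D)
    (p : Cv k x) : 0 ≤ p.deg R := by
  rcases const_or_curve h p with h1 | ⟨C, j, hp⟩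
  · exact (h1 _).ge
  · have h1 := hD.2 C
    have h2 : (0 : ℚ) ≤ p.deg R := by rw [hR p C j hp]; positivity
    exact_mod_cast h2

omit hH in
theorem zero_of {R : Cd V.K} (hR : Num U x R 1 0) (p : Cv k x) : p.deg R = 0 := by
  rcases const_or_curve h p with h1 | ⟨C, j, hp⟩
  · exact h1 _
  · have h2 := hR p C j hp
    rw [inter_zero, mul_zero, mul_zero] at h2
    exact_mod_cast h2

theorem semi_of {D : V.QDiv} {R Z : Cd V.K} {q : ℕ} (hq : 0 < q) (hR : Num U x R q D)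
    (hZ : Num U x Z 1 0) (hc : Con k x R Z) : IsNumSemiample D := by
  obtain ⟨m, σ, _, u, hm, hu, hdeg⟩ := hc
  obtain ⟨F, hF⟩ := exists_gen h hu
  have hFc : IsCartier F := fun p => by
    obtain ⟨l, hl⟩ := hF.gen p
    exact ⟨_, hl⟩
  have hmq := Nat.mul_pos hm hq
  have hL := mult_smul (mult_toQ hFc) 1 (m * q) hmq
  rw [one_smul] at hL
  refine ⟨_, ⟨_, F, hL.1, hL.2.1, hFc, fun p => ?_⟩, fun C => ?_⟩
  · obtain ⟨l, hl⟩ := hF.gen p
    exact ⟨u l, fun Y => hF.sec l Y.1 hl.1 Y specializes_rfl, hl⟩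
  · obtain ⟨p, j, hp⟩ := exists_cv h C
    have h1 := num_of' h hH hL (R := ⟨σ, u, 0⟩) (by rwa [zero_smul, add_zero]) p C j hp
    have h2 : p.deg ⟨σ, u, 0⟩ = m * p.deg R := by
      rw [Cv.deg, hdeg p, zero_of h hZ, add_zero, Nat.cast_zero, zero_mul, sub_zero]
    rw [h2, Int.cast_mul, hR p C j hp] at h1
    have h3 : (mult j : ℚ) * (m * q) ≠ 0 := by
      have := mult_pos j
      positivity
    refine mul_left_cancel₀ h3 ?_
    generalize inter (((1 : ℕ) / (m * q : ℕ) : ℚ) • toQ F) C = d at h1 ⊢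
    push_cast at h1
    linear_combination h1

theorem klt_of {n : ℕ} {ω : V.Form n} {L : V.QDiv} (hd : V.dim = n)
    (hl : ∀ (F : DivisorOver V) a, F.IsLogDiscrepancy ω L a → 0 < a) {y : Fin n → V.K} {g : V.K}
    (hg : g ≠ 0) (hω : ∀ v, ω v = g * jac v y) {q : ℕ} {E : V.Div} (hE : IsCartierMultiple L q E)
    {R : Cd V.K} (hR : Gen (E - divOf _ (pow_ne_zero q hg) + R.c • H) R.s) : Klt k x y q R := by
  intro P hP D hD h0
  have := h.essFinite
  have hq : (0 : ℚ) < q := Nat.cast_pos.2 hE.1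
  have hgq := pow_ne_zero q hg
  let F : DivisorOver V := ⟨P, hP.1, trdeg_residue hd P hP⟩
  obtain ⟨p, hp⟩ := h.centre P.ring hP.1
  obtain ⟨f, hf⟩ := hE.2.2 p
  obtain ⟨N, hN⟩ := jac_bdd (k := k) P y
  obtain ⟨r, h1, h2⟩ := Int.exists_least_of_bdd (P := fun m : ℤ => ∃ v : Fin n → V.Der,
    (∀ i, ∀ f ∈ P.ring, applyDer (v i) f ∈ P.ring) ∧ ω.value v ≠ 0 ∧ P.ord (ω.value v) = m)
    ⟨P.ord g + N, by
      rintro _ ⟨v, h1, h2, rfl⟩
      have h3 : ω.value v = g * jac v y := hω v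
      rw [h3] at h2 ⊢
      have h4 := hN v h1 (right_ne_zero_of_mul h2)
      rw [P.ord_mul hg (right_ne_zero_of_mul h2)]
      omega⟩ ⟨_, D, hD, by rw [show ω.value D = _ from hω D]; exact mul_ne_zero hg h0, rfl⟩
  have h3 := h2 _ ⟨D, hD, by rw [show ω.value D = _ from hω D]; exact mul_ne_zero hg h0, rfl⟩
  rw [show ω.value D = _ from hω D, P.ord_mul hg h0] at h3
  have h4 := hl F _ ⟨r, _, ⟨h1, h2⟩, ⟨q, E, p, f, hE, hp, hf, rfl⟩, rfl⟩
  rw [sub_pos, div_lt_iff₀ hq] at h4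
  have h5 : P.ord f⁻¹ < (1 + r) * q := by exact_mod_cast h4
  have h6 := mul_le_mul_of_nonneg_left h3 (Int.natCast_nonneg q)
  rw [cf_rep h hH hR P (fun _ => hp.mem) (gen_divOf hf hgq), P.ord_mul hf.1 hgq, P.ord_pow]
  rw [P.ord_inv] at h5
  linarith

/-- the coefficient at a prime divisor -/
theorem cf_div {E : V.Div} (hE : IsCartier E) {R : Cd V.K} (hR : Gen (E + R.c • H) R.s)
    {P : Place V.K} {y : V.PrimeDiv} (hp : Dom P.ring y.1)
    (ho : ∀ g, g ≠ 0 → ordAlong g y = P.ord g) : cf x P R = E y := by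
  obtain ⟨f, hf⟩ := hE y.1
  have := hf.2 y specializes_rfl
  rw [cf_rep h hH hR P (fun _ => hp.mem) hf, ← ho f hf.1]
  omega

end one

/-- **generalised abundance for generalised klt pairs** -/
theorem main (hff : ∀ n, FF2 k n) (b : Bir Y X) {n : ℕ} {ω : Y.Form n} {κ : Y.Div}
    {B M G : Y.QDiv} {D : X.QDiv} (hd : Y.dim = n) (h0 : ω.Nonzero) (hκ : IsDivisorOf κ ω)
    (hM : IsNef M) (hP : b.Pull D (toQ κ + B + M))
    (hB : ∀ E : Y.PrimeDiv, coheight (b.f E.1) = 1 → 0 ≤ B E) (hl : IsKlt ω κ B) (hG : IsPsef G)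
    (hGB : ∀ E : Y.PrimeDiv, coheight (b.f E.1) = 1 → G E ≤ (toQ κ + B) E) (hD : IsNef D)
    {ι : Type} [Fintype ι] [Nonempty ι] {x : ι → X.K} {U : ι → X.X.Opens} (h : Atl k x U) :
    IsNumSemiample D ∧ ∀ W : Cd X.K, Free k x W.s → (∀ p : Cv k x, p.deg W ≤ 0) → Amp k x W := by
  obtain ⟨H, hH⟩ := exists_gen h (free_coord h)
  obtain ⟨ι', _, _, x', U', h'⟩ := exists_atlV Y
  obtain ⟨H', hH'⟩ := exists_gen h' (free_coord h')
  have := h'.essFinite
  obtain ⟨y, δ, g, hfr, hg, hω, hch⟩ := exists_frame (k := k) (K := Y.K) hd ω h0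
  let _ : Algebra X.K Y.K := b.φ.toRingHom.toAlgebra
  have ea : ∀ u, algebraMap X.K Y.K u = b.φ u := fun _ => rfl
  have : IsScalarTower k X.K Y.K := IsScalarTower.of_algebraMap_eq fun c => (b.const c).symm
  have bc : BC k k X.K Y.K := ⟨by
    rw [show (IsScalarTower.toAlgHom k k Y.K).range = ⊥ from Algebra.range_ofId]
    exact Subalgebra.LinearDisjoint.bot_right _, fun u => ⟨1, one_mem _, one_ne_zero, by
      rw [one_mul]
      exact Algebra.subset_adjoin ⟨b.φ.symm u, trivial, b.φ.apply_symm_apply u⟩⟩⟩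
  have hdX : X.dim = n := (AlgEquiv.trdeg_eq { b.φ with commutes' := b.const }).trans hd
  -- common multiples
  obtain ⟨m₁, E₁, F₁, a1, a2, a3⟩ := b.pull_mult hP
  obtain ⟨m₂, E₂, a4⟩ := hM.1
  obtain ⟨m₃, E₃, a5⟩ := hG.1
  set q := m₂ * m₃ * m₁ with hq'
  have hD' := mult_nsmul a1 (Nat.mul_pos a4.1 a5.1)
  have hF' := mult_nsmul a2 (Nat.mul_pos a4.1 a5.1)
  have hM' := mult_nsmul a4 (Nat.mul_pos a1.1 a5.1)
  have hG' := mult_nsmul a5 (Nat.mul_pos a1.1 a4.1)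
  rw [show m₁ * m₃ * m₂ = q by rw [hq']; ring] at hM'
  rw [show m₁ * m₂ * m₃ = q by rw [hq']; ring] at hG'
  have a6 : ∀ p u, GeneratesAt ((m₂ * m₃) • E₁) u (b.f p) →
      GeneratesAt ((m₂ * m₃) • F₁) (b.φ u) p := fun p u hu => by
    obtain ⟨v, hv⟩ := a1.2.2 (b.f p)
    have e1 := un_div (gen_pow hv (m₂ * m₃)) hu
    have e2 := gen_un (gen_pow (a3 p v hv) (m₂ * m₃)) (u := b.φ (u / v ^ (m₂ * m₃)))
      ⟨(map_ne_zero _).2 e1.1, b.loc e1.2.1, map_inv₀ b.φ _ ▸ b.loc e1.2.2⟩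
    rwa [← map_pow, ← map_mul, div_mul_cancel₀ _ (pow_ne_zero _ hv.1)] at e2
  rw [← hq'] at hD' hF'
  generalize (m₂ * m₃) • E₁ = ED at hD' a6
  generalize (m₂ * m₃) • F₁ = EF at hF' a6
  generalize (m₁ * m₃) • E₂ = EM at hM'
  generalize (m₁ * m₂) • E₃ = EG at hG'
  clear_value q
  have hC' : IsCartierMultiple (toQ κ + B) q (EF - EM) := ⟨hF'.1, fun E => by
    rw [Finsupp.sub_apply, Int.cast_sub, hF'.2.1, hM'.2.1, Finsupp.add_apply _ M]
    ring, cartier_sub hF'.2.2 hM'.2.2⟩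
  have hq : (0 : ℚ) < q := Nat.cast_pos.2 hD'.1
  have hgq : g ^ q ≠ 0 := pow_ne_zero q hg
  have hg0 : b.φ.symm (g ^ q) ≠ 0 := (map_ne_zero _).2 hgq
  obtain ⟨RC, rC⟩ := exists_rep h' hH' (cartier_div hC'.2.2 hgq)
  obtain ⟨RG, rG⟩ := exists_rep h' hH' (cartier_div hG'.2.2 hgq)
  obtain ⟨RM, rM⟩ := exists_rep h' hH' hM'.2.2
  obtain ⟨RD, rD⟩ := exists_rep h hH (cartier_div hD'.2.2 hg0)
  obtain ⟨RZ, rZ⟩ := exists_rep h hH (mult_zero (V := X)).2.2
  have nD := num_of h hH hD' hg0 rD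
  have nZ := num_of' h hH mult_zero rZ
  have x0 := HybH.free_ne (free_coord h)
  have res : ∀ P : Place Y.K, ∃ (P₀ : Place X.K) (e : ℕ), (∀ u, b.φ u ∈ P.ring ↔ u ∈ P₀.ring) ∧
      ∀ u, P.ord (algebraMap X.K Y.K u) = e * P₀.ord u := fun P => by
    obtain ⟨P₀, e, -, e1, e2⟩ := PlH.ex_res (K := X.K) P fun c => P.ring_ne_top
      (eq_top_iff.2 fun u _ => b.φ.apply_symm_apply u ▸ c (b.φ.symm u))
    exact ⟨P₀, e, e1, e2⟩
  have cfp : ∀ {E : X.Div} {R : Cd X.K}, Gen (E + R.c • H) R.s → ∀ {P : Place Y.K} {p : Y.X},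
      Dom P.ring p → ∀ {u}, GeneratesAt E u (b.f p) →
        cf (up Y.K x) P (R.up Y.K) = - P.ord (b.φ u) := fun hR P p hp u hu => by
    obtain ⟨P₀, e, e1, e2⟩ := res P
    rw [KlbH.cf_up e2 x0 (HybH.free_ne (hR.free h)),
      cf_rep h hH hR P₀ (fun _ => (b.dom e1 hp).mem) hu, ← ea, e2, mul_neg]
  have nx : ∀ P i, Nx k n (up Y.K x) P i → ∃ E : Y.PrimeDiv, Dom P.ring E.1 ∧
      coheight (b.f E.1) = 1 ∧ (∀ j, up Y.K x j / up Y.K x i ∈ loc E.1) ∧
      ∀ u, u ≠ 0 → ordAlong u E = P.ord u := fun P i hP => by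
    obtain ⟨p, hp⟩ := h'.centre P.ring hP.cst
    obtain ⟨P₀, e, e1, e2⟩ := res P
    have h1 := res_nx (k := k) e1 hP
    have h2 := b.dom e1 hp
    obtain ⟨j, hj⟩ := h.cov (b.f p)
    have h3 : b.f p ∈ U i := (h.unit j i _ hj).2 (h2.un (h.loc_of_mem (h.coord_mem j i) hj)
      (div_ne_zero (h.ne i) (h.ne j)) (by rw [inv_div]; exact h1.mem j))
    have h4 := fun l => h.loc_of_mem (h.coord_mem i l) h3
    have h5 : ∀ l, up Y.K x l / up Y.K x i ∈ loc p := fun l => by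
      rw [up, up, ← map_div₀]
      exact b.loc (h4 l)
    obtain ⟨d, w, rfl, hw⟩ := h1.ind
    obtain ⟨d', w', e3, hw'⟩ := hP.ind
    obtain ⟨h6, -⟩ := codim hdX P₀ h2 (fun a => h4 (w a)) hw
    obtain ⟨h7, h8⟩ := codim (e3 ▸ hd) P hp (fun a => h5 (w' a)) hw'
    exact ⟨⟨p, h7⟩, hp, h6, h5, h8⟩
  obtain ⟨n', ω', b1, b2⟩ := exists_form X
  have := h.essFinite
  obtain ⟨y₀, δ₀, -, fr₀, -⟩ := exists_frame (k := k) (K := X.K) b1 ω' b2
  have fr := fun {σ : Type} [Fintype σ] (s : σ → X.K) => (ldn.free k k _ Y.K bc ι σ x s).2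
  suffices key : ∀ W : Cd X.K, Free k x W.s → Out k x RD RZ W from
    ⟨semi_of h hH hD'.1 nD nZ (key RZ (rZ.free h)).1, fun W hW => (key W hW).2⟩
  refine fun W hW => (out_iff bc h.ne (rD.free h) (rZ.free h) hW).1
    (hff n Y.K ι ι' (up Y.K x) x' y δ q RC RG RM _ _ _
      { md := mdu k k _ _ bc n' y₀ (fr_ind fr₀) fr₀.fin ι x (h.model X.normal)
        ne := h'.ne
        fx := ?_
        fr := hfr
        q0 := hD'.1
        fC := rC.free h'
        fG := rG.free h'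
        fM := rM.free h'
        fD := fr _ (rD.free h)
        fZ := fr _ (rZ.free h)
        rel := fun P hP => ?_
        bdy := fun P i hP e => ?_
        low := fun P i hP => ?_
        klt := klt_of h' hH' hd (positive hd h0 hκ hl) hg hω hC' rC
        psf := psf_of h' hH' hG (num_of h' hH' hG' hgq rG)
        nM := nef_of h' hM (num_of' h' hH' hM' rM)
        nD := fun p' => ?_ } (fr _ hW))
  · obtain ⟨F, hF⟩ := gen_of_loc (u := up Y.K x) fun p => by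
      obtain ⟨l, l0, hl⟩ := free_loc h (free_coord h) (b.f p)
      exact ⟨l, (map_ne_zero _).2 l0, fun l' => by
        rw [up, up, ← map_div₀]
        exact b.loc (hl l')⟩
    exact hF.free h'
  · obtain ⟨p, hp⟩ := h'.centre P.ring hP
    obtain ⟨u, hu⟩ := hD'.2.2 (b.f p)
    obtain ⟨v, hv⟩ := hM'.2.2 p
    have u0 := (map_ne_zero b.φ).2 hu.1
    have c1 : GeneratesAt (EF - EM) (b.φ u / v) p :=
      gen_div (F := EM) (by rw [sub_add_cancel]; exact a6 p u hu) hv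
    rw [cf_rep h' hH' rC P (fun _ => hp.mem) (gen_divOf c1 hgq),
      cf_rep h' hH' rM P (fun _ => hp.mem) hv, cfp rD hp (gen_divOf hu hg0),
      cfp rZ hp (u := 1) ⟨one_ne_zero, fun y _ => by rw [ordAlong, ord_one']; rfl⟩, map_one,
      map_mul, RingEquiv.apply_symm_apply, P.ord_mul c1.1 hgq, P.ord_mul u0 hgq, P.ord_div u0 hv.1,
      P.ord_one]
    ring
  · obtain ⟨E, e1, e2, e3, e4⟩ := nx P i hP
    refine or_iff_not_imp_right.2 fun h1 => ?_
    have h2 := ord_jac hκ hg hω hch E (fun a => e3 (e a)) h1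
    have h3 : (q * κ E : ℚ) ≤ (EF - EM) E := by
      rw [hC'.2.1, Finsupp.add_apply, toQ_apply, mul_add]
      exact le_add_of_nonneg_right (mul_nonneg hq.le (hB E e2))
    have h4 : q * κ E ≤ (EF - EM) E := by exact_mod_cast h3
    have h5 := mul_nonneg (Int.natCast_nonneg q) h2
    rw [cf_div h' hH' (cartier_div hC'.2.2 hgq) rC e1 e4, ← e4 _ h1, Finsupp.sub_apply, divOf_apply,
      ordAlong_pow hg]
    linarith
  · obtain ⟨E, e1, e2, -, e4⟩ := nx P i hP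
    have h3 : (EG E : ℚ) ≤ (EF - EM) E := by
      rw [hC'.2.1, hG'.2.1]
      exact mul_le_mul_of_nonneg_left (hGB E e2) hq.le
    have h4 : EG E ≤ (EF - EM) E := by exact_mod_cast h3
    rw [cf_div h' hH' (cartier_div hC'.2.2 hgq) rC e1 e4,
      cf_div h' hH' (cartier_div hG'.2.2 hgq) rG e1 e4, Finsupp.sub_apply, Finsupp.sub_apply _ (divOf _ _)]
    omega
  · obtain ⟨J, _, p, hp⟩ := HybH.spec P270L.spec bc h.ne p'
    rw [hp RD (rD.free h), hp RZ (rZ.free h), ← Finset.sum_add_distrib]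
    exact Finset.sum_nonneg fun j _ => by
      rw [zero_of h nZ, add_zero]
      exact nef_of h hD nD _

end Vale.Agent.N270
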